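import Vale.Agent.N124.Tree
import Vale.Agent.P124.H413.Main
import Vale.Agent.P124.H413.T4

/-!
P124, second hand-in: ball properties of the classical spaces, absorption, decomposition.
-/

open Finset Filter Topology TopologicalSpace
open scoped ZeroAtInfty NNReal

namespace N124

section Lip

variable {X Y W : Type} [NormedAddCommGroup X] [NormedAddCommGroup Y] [NormedAddCommGroup W]

/-- Lipschitz equivalence -/
def LE (X Y : Type) [NormedAddCommGroup X] [NormedAddCommGroup Y] : Prop :=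
  ∃ (f : X ≃ Y) (L L' : ℝ≥0), LipschitzWith L f ∧ LipschitzWith L' f.symm

theorem LE.symm (h : LE X Y) : LE Y X := by
  obtain ⟨f, L, L', h1, h2⟩ := h
  exact ⟨f.symm, L', L, h2, h1⟩

theorem LE.trans (h : LE X Y) (h' : LE Y W) : LE X W := by
  obtain ⟨f, L, L', h1, h2⟩ := h
  obtain ⟨g, M, M', h3, h4⟩ := h'
  exact ⟨f.trans g, _, _, h3.comp h1, h2.comp h4⟩

theorem LE.prod (V : Type) [NormedAddCommGroup V] (h : LE X Y) : LE (V × X) (V × Y) := by
  obtain ⟨f, L, L', h1, h2⟩ := h
  exact ⟨(Equiv.refl V).prodCongr f, _, _,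
    LipschitzWith.prod_fst.prodMk (h1.comp LipschitzWith.prod_snd),
    LipschitzWith.prod_fst.prodMk (h2.comp LipschitzWith.prod_snd)⟩

theorem LE.lipIso (h : LE X Y) : LipIso X Y := by
  obtain ⟨f, L, L', h1, h2⟩ := h
  obtain ⟨c, C, h⟩ := P124H186.T10.bounds_of_lipschitz f (max L L')
    (h1.weaken (le_max_left _ _)) (h2.weaken (le_max_right _ _))
  exact ⟨f, c, C, h⟩

variable [NormedSpace ℝ X] [NormedSpace ℝ Y] [NormedSpace ℝ W]

theorem Complemented.trans (h : Complemented X Y) (h' : Complemented Y W) : Complemented X W := by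
  obtain ⟨S, T, h⟩ := h
  obtain ⟨S', T', h'⟩ := h'
  exact ⟨S'.comp S, T.comp T', fun x => by simp [h, h']⟩

/-- the decomposition method, Lipschitz form -/
theorem LE.absorb (h : Complemented Y X) (h2 : LE Y (Y × Y)) : LE X (X × Y) := by
  obtain ⟨S, T, h⟩ := h
  obtain ⟨θ, L, L', h1, h2⟩ := h2
  let Q : X →L[ℝ] X := ContinuousLinearMap.id ℝ X - S.comp T
  have hQ : ∀ x, Q x = x - S (T x) := fun x => rfl
  have hT : ∀ x b, T (Q x + S b) = b := fun x b => by simp [hQ, h]
  have hQQ : ∀ x b, Q (Q x + S b) = Q x := fun x b => by simp [hQ, h]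
  refine ⟨⟨fun x => (Q x + S (θ (T x)).1, (θ (T x)).2),
    fun p => Q p.1 + S (θ.symm (T p.1, p.2)), fun x => ?_, fun p => ?_⟩, _, _,
    (Q.lipschitz.add (S.lipschitz.comp (LipschitzWith.prod_fst.comp (h1.comp T.lipschitz)))).prodMk
      (LipschitzWith.prod_snd.comp (h1.comp T.lipschitz)),
    (Q.lipschitz.comp LipschitzWith.prod_fst).add (S.lipschitz.comp (h2.comp
      ((T.lipschitz.comp LipschitzWith.prod_fst).prodMk LipschitzWith.prod_snd)))⟩
  · simp only [hT, hQQ, Prod.mk.eta, Equiv.symm_apply_apply]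
    rw [hQ, sub_add_cancel]
  · simp only [hT, hQQ, Equiv.apply_symm_apply]
    rw [hQ, sub_add_cancel]

end Lip

section Ball

variable {X : Type} [NormedAddCommGroup X]

theorem ABall.exact [CompleteSpace X] (hX : ABall X) (ι : Type) [Fintype ι] (x : ι → X)
    (r : ι → ℝ) (h : ∀ i j, ‖x i - x j‖ ≤ r i + r j) : ∃ y, ∀ i, ‖y - x i‖ ≤ r i := by
  have step : ∀ (k : ℕ) (y : X), ∃ y' : X, (∀ i, ‖y - x i‖ ≤ r i + (1 / 2) ^ k) →
      (∀ i, ‖y' - x i‖ ≤ r i + (1 / 2) ^ (k + 1)) ∧ ‖y' - y‖ ≤ 2 * (1 / 2) ^ k := by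
    intro k y
    by_cases hy : ∀ i, ‖y - x i‖ ≤ r i + (1 / 2) ^ k
    · have hp : (0 : ℝ) < (1 / 2) ^ k := by positivity
      obtain ⟨y', hy'⟩ := hX (Option ι) (fun o => o.elim y x) (fun o => o.elim ((1 / 2) ^ k) r) (by
        rintro (_ | i) (_ | j)
        · simp only [Option.elim_none, sub_self, norm_zero]; linarith
        · simp only [Option.elim_none, Option.elim_some]; linarith [hy j]
        · simp only [Option.elim_none, Option.elim_some]; rw [norm_sub_rev]; linarith [hy i]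
        · exact h i j) ((1 / 2) ^ (k + 1)) (by positivity)
      refine ⟨y', fun _ => ⟨fun i => hy' (some i), ?_⟩⟩
      have := hy' none
      simp only [Option.elim_none, pow_succ] at this
      linarith
    · exact ⟨y, fun h' => absurd h' hy⟩
  choose nx hnx using step
  obtain ⟨y0, hy0⟩ := hX ι x r h 1 one_pos
  let y : ℕ → X := fun k => Nat.rec y0 nx k
  have hy : ∀ k i, ‖y k - x i‖ ≤ r i + (1 / 2) ^ k := by
    intro k
    induction k with
    | zero => rw [pow_zero]; exact hy0
    | succ k ih => exact (hnx k (y k) ih).1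
  obtain ⟨w, hw⟩ := cauchySeq_tendsto_of_complete
    (cauchySeq_of_le_geometric (1 / 2) 2 (by norm_num) (f := y) fun k => by
      rw [dist_comm, dist_eq_norm]; exact (hnx k (y k) (hy k)).2)
  refine ⟨w, fun i => ?_⟩
  have h1 : Tendsto (fun k : ℕ => r i + (1 / 2 : ℝ) ^ k) atTop (𝓝 (r i + 0)) :=
    (tendsto_pow_atTop_nhds_zero_of_lt_one (by norm_num) (by norm_num)).const_add _
  rw [add_zero] at h1
  exact le_of_tendsto_of_tendsto' (hw.sub_const (x i)).norm h1 fun k => hy k i

theorem ABall.on [CompleteSpace X] (hX : ABall X) : P124H186.BallPropOn (Set.univ : Set X) := by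
  intro n x r _ h
  obtain ⟨y, hy⟩ := hX.exact (Fin (n + 1)) (fun i => x i) (fun i => r i) fun i j => by
    rw [← dist_eq_norm]; exact h i (Nat.lt_succ_iff.1 i.2) j (Nat.lt_succ_iff.1 j.2)
  exact ⟨y, trivial, fun i hi => by rw [dist_eq_norm]; exact hy ⟨i, Nat.lt_succ_iff.2 hi⟩⟩

theorem aball_of_fin (h : ∀ (n : ℕ) (x : Fin (n + 1) → X) (r : Fin (n + 1) → ℝ),
    (∀ i j, ‖x i - x j‖ ≤ r i + r j) → ∀ ε : ℝ, 0 < ε → ∃ y, ∀ i, ‖y - x i‖ ≤ r i + ε) :
    ABall X := by
  intro ι _ x r hx ε hε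
  rcases isEmpty_or_nonempty ι with h0 | h0
  · exact ⟨0, fun i => h0.elim i⟩
  obtain ⟨n, hn⟩ := Nat.exists_eq_succ_of_ne_zero (Fintype.card_ne_zero (α := ι))
  let e : ι ≃ Fin (n + 1) := Fintype.equivFinOfCardEq hn
  obtain ⟨y, hy⟩ := h n (fun i => x (e.symm i)) (fun i => r (e.symm i)) (fun i j => hx _ _) ε hε
  exact ⟨y, fun i => by simpa using hy (e i)⟩

theorem BallsMeet.aball [NormedSpace ℝ X] (h : BallsMeet X) : ABall X := by
  refine aball_of_fin fun n x r hx ε hε => ?_
  have hr : ∀ i, 0 ≤ r i := fun i => by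
    have := hx i i
    rw [sub_self, norm_zero] at this
    linarith
  obtain ⟨y, hy⟩ := h n x r fun i j => by
    obtain ⟨y, h1, h2⟩ := exists_dist_le_le (hr i) (hr j) (x := x i) (z := x j)
      (by rw [dist_eq_norm, add_comm]; exact hx i j)
    exact ⟨y, Metric.mem_closedBall'.2 h1, Metric.mem_closedBall.2 h2⟩
  refine ⟨y, fun i => ?_⟩
  have := Metric.mem_closedBall.1 (Set.mem_iInter.1 hy i)
  rw [dist_eq_norm] at this
  linarith

theorem ABall.ballsMeet [CompleteSpace X] (h : ABall X) : BallsMeet X := by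
  intro n x r hx
  obtain ⟨y, hy⟩ := h.exact _ x r fun i j => by
    obtain ⟨y, h1, h2⟩ := hx i j
    rw [Metric.mem_closedBall] at h1 h2
    rw [← dist_eq_norm]
    linarith [dist_triangle_left (x i) (x j) y]
  exact ⟨y, Set.mem_iInter.2 fun i => by rw [Metric.mem_closedBall, dist_eq_norm]; exact hy i⟩

theorem aball_of_dense {D : Set X} (hD : Dense D) (h : P124H186.BallPropOn D) : ABall X := by
  refine aball_of_fin fun n x r hx ε hε => ?_
  choose x' hx'D hx' using fun i => hD.exists_dist_lt (x i) (show 0 < ε / 2 by positivity)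
  obtain ⟨y, -, hy⟩ := h n (fun i => x' (Fin.ofNat _ i)) (fun i => r (Fin.ofNat _ i) + ε / 2)
    (fun i _ => hx'D _) fun i _ j _ => by
      have h1 := hx (Fin.ofNat _ i) (Fin.ofNat _ j)
      rw [← dist_eq_norm] at h1
      linarith [dist_triangle4 (x' (Fin.ofNat _ i)) (x (Fin.ofNat _ i)) (x (Fin.ofNat _ j))
        (x' (Fin.ofNat _ j)), hx' (Fin.ofNat _ i), hx' (Fin.ofNat _ j),
        dist_comm (x' (Fin.ofNat _ i)) (x (Fin.ofNat _ i))]
  refine ⟨y, fun i => ?_⟩
  have h1 := hy i (Nat.lt_succ_iff.1 i.2)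
  simp only [Fin.ofNat_val_eq_self] at h1
  rw [← dist_eq_norm]
  linarith [dist_triangle_right y (x i) (x' i), hx' i]

theorem aball_CK (K : Type) [TopologicalSpace K] [CompactSpace K] : ABall C(K, ℝ) := by
  refine aball_of_fin fun n x r hx ε hε => ?_
  have hr : ∀ i, 0 ≤ r i := fun i => by
    have := hx i i
    rw [sub_self, norm_zero] at this
    linarith
  refine ⟨univ.sup' univ_nonempty fun i => x i - ContinuousMap.const K (r i), fun i => ?_⟩
  rw [ContinuousMap.norm_le _ (by linarith [hr i])]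
  intro t
  rw [ContinuousMap.sub_apply, ContinuousMap.sup'_apply, Real.norm_eq_abs, abs_le]
  constructor
  · have := le_sup' (fun j => (x j - ContinuousMap.const K (r j)) t) (mem_univ i)
    simp only [ContinuousMap.sub_apply, ContinuousMap.const_apply] at this ⊢
    linarith
  · rw [sub_le_iff_le_add]
    refine sup'_le _ _ fun j _ => ?_
    have h1 := ((x j - x i).norm_coe_le_norm t).trans (hx j i)
    simp only [ContinuousMap.sub_apply, ContinuousMap.const_apply, Real.norm_eq_abs] at h1 ⊢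
    linarith [(abs_le.1 h1).2]

theorem ABall.prod {Y : Type} [NormedAddCommGroup Y] (hX : ABall X) (hY : ABall Y) :
    ABall (X × Y) := by
  intro ι _ x r hx ε hε
  obtain ⟨a, ha⟩ := hX ι (fun i => (x i).1) r
    (fun i j => (norm_fst_le (x i - x j)).trans (hx i j)) ε hε
  obtain ⟨b, hb⟩ := hY ι (fun i => (x i).2) r
    (fun i j => (norm_snd_le (x i - x j)).trans (hx i j)) ε hε
  exact ⟨(a, b), fun i => norm_prod_le_iff.2 ⟨ha i, hb i⟩⟩

end Ball

open P124H186

/-- the absorbing space of the starting proof -/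
abbrev AA : Type := C₀(ℕ × ℕ, Z)

theorem aball_AA : ABall AA := by
  intro ι _ x r hx ε hε
  have hr : ∀ i, 0 ≤ r i := fun i => by
    linarith [hx i i, norm_nonneg (x i - x i)]
  have h2 : ∀ᶠ d in cofinite, ∀ i, ‖x i d‖ < ε := by
    refine eventually_all.2 fun i => ?_
    have h3 := (c0_tendsto (x i)).norm
    rw [norm_zero] at h3
    exact h3.eventually_lt_const hε
  have h4 : {d | ¬ ∀ i, ‖x i d‖ < ε}.Finite := h2
  choose z hz using fun d => aball_CK Q ι (fun i => x i d) r
    (fun i j => (c0_norm_apply_le (x i - x j) d).trans (hx i j)) ε hε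
  refine ⟨finC0 h4.toFinset fun d => z d, fun i => ?_⟩
  refine (c0_norm_le (by linarith [hr i])).2 fun d => ?_
  rw [ZeroAtInftyContinuousMap.sub_apply, finC0_apply]
  split_ifs with hd
  · exact hz d i
  · have hd' : ∀ i, ‖x i d‖ < ε := by simpa using hd
    rw [zero_sub, norm_neg]
    linarith [hd' i, hr i]

/-- the absorption theorem contained in the starting proof -/
theorem absorb (E : Type) [NormedAddCommGroup E] [NormedSpace ℝ E] [CompleteSpace E]
    [SeparableSpace E] (hE : ABall E) : LE (E × AA) AA := by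
  obtain ⟨W, _, _, hW⟩ := T1_katetov
  obtain ⟨zc, hzc, hzcd⟩ := T3_dense
  obtain ⟨p⟩ := P124H28.T6_run_of (fun hX => P124H447.T5_of_T4 H413.T4_geometric hX) W hW E
    Set.univ hE.on trivial (denseSeq E) (fun _ => trivial) zc hzc
  obtain ⟨Y, _, y₀, h, L, ρ, hL, hL', hy, hρ⟩ :=
    T7_limit W E (denseSeq E) (denseRange_denseSeq E) zc hzcd p
  obtain ⟨Φ, L', hΦ, hΦ'⟩ := T8_transducer y₀ h L hL hL' hy ρ hρ
  exact ⟨Φ, L', L', hΦ, hΦ'⟩

theorem compl_AA (hM : MilStmt) : Complemented AA C(Can, ℝ) := by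
  have e : OnePoint (ℕ × ℕ) ≃ₜ OnePoint ℕ := (Homeomorph.ofDiscrete Nat.pairEquiv).onePointCongr
  have : SecondCountableTopology (OnePoint ℕ) := by
    let _ := metrizableSpaceMetric (OnePoint ℕ)
    infer_instance
  have : SecondCountableTopology (OnePoint (ℕ × ℕ)) := e.secondCountableTopology
  exact Complemented.trans ⟨JL, PL, PL_JL⟩ (hM KK)

theorem le_AA (hM : MilStmt) (X : Type) [NormedAddCommGroup X] [NormedSpace ℝ X]
    [CompleteSpace X] [SeparableSpace X] (hX : ABall X) (h : Complemented C(Can, ℝ) X) :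
    LE X AA := by
  have := c0_separable
  exact (LE.absorb ((compl_AA hM).trans h) (absorb AA aball_AA).symm).trans (absorb X hX)

/-- `C[0,1]` has a nonseparable dual -/
theorem dual_I : ¬ SeparableSpace (StrongDual ℝ C(unitInterval, ℝ)) := by
  intro h
  let δ : unitInterval → StrongDual ℝ C(unitInterval, ℝ) := fun t => ContinuousMap.evalCLM ℝ t
  have hsep : ∀ s t, s ≠ t → 1 ≤ dist (δ s) (δ t) := by
    intro s t hst
    obtain ⟨f, hf0, hf1, hf⟩ := exists_continuous_zero_one_of_isClosed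
      (isClosed_singleton (x := s)) (isClosed_singleton (x := t)) (by simpa using hst)
    have h1 : ‖f‖ ≤ 1 := (ContinuousMap.norm_le _ zero_le_one).2 fun u => by
      rw [Real.norm_of_nonneg (hf u).1]; exact (hf u).2
    have h2 := (δ s - δ t).le_opNorm f
    have h3 : (δ s - δ t) f = -1 := by
      simp [δ, hf0 (Set.mem_singleton s), hf1 (Set.mem_singleton t)]
    rw [h3, norm_neg, norm_one] at h2
    have h4 : dist (δ s) (δ t) = ‖δ s - δ t‖ := dist_eq_norm (δ s) (δ t)
    nlinarith [norm_nonneg (δ s - δ t)]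
  have hc : Countable unitInterval := by
    refine Pairwise.countable_of_isOpen_disjoint (s := fun t => Metric.ball (δ t) (1 / 2))
      (fun s t hst => Metric.ball_disjoint_ball (by linarith [hsep s t hst]))
      (fun _ => Metric.isOpen_ball) fun t => ⟨δ t, Metric.mem_ball_self (by norm_num)⟩
  have := Cardinal.mk_le_aleph0_iff.2 hc
  rw [Cardinal.mk_Icc_real zero_lt_one] at this
  exact absurd this (not_le.2 Cardinal.aleph0_lt_continuum)

theorem le_I (hM : MilStmt) : LE C(unitInterval, ℝ) AA :=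
  le_AA hM _ (aball_CK _) (tree _ (aball_CK _) dual_I)

/-- classification -/
theorem classify (hM : MilStmt) (X : Type) [NormedAddCommGroup X] [NormedSpace ℝ X]
    [CompleteSpace X] [SeparableSpace X] (hX : ABall X) (h : ¬ SeparableSpace (StrongDual ℝ X)) :
    LipIso X C(unitInterval, ℝ) :=
  ((le_AA hM X hX (tree X hX h)).trans (le_I hM).symm).lipIso

/-- absorption by `C[0,1]` -/
theorem absorb_I (hM : MilStmt) (X : Type) [NormedAddCommGroup X] [NormedSpace ℝ X]
    [CompleteSpace X] [SeparableSpace X] (hX : ABall X) :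
    LipIso (X × C(unitInterval, ℝ)) C(unitInterval, ℝ) :=
  ((((le_I hM).prod X).trans (absorb X hX)).trans (le_I hM).symm).lipIso

/-- the Gurarii space -/
theorem gurarii (hM : MilStmt) (hB : GurBallStmt) (hW : WojStmt) (G : Type)
    [NormedAddCommGroup G] [NormedSpace ℝ G] [CompleteSpace G] [SeparableSpace G]
    (hG : IsGurarii G) : LipIso G C(unitInterval, ℝ) ∧
      ∀ (K : Type) [TopologicalSpace K] [CompactSpace K], ¬ Complemented G C(K, ℝ) := by
  refine ⟨((le_AA hM G (hB G hG) (hW G hG _ (aball_CK _))).trans (le_I hM).symm).lipIso,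
    fun K _ _ h => ?_⟩
  obtain ⟨ec, -, hec⟩ := T2.exists_dense_seq
  have : SeparableSpace T2.E := ⟨⟨Set.range ec, Set.countable_range ec, hec⟩⟩
  obtain ⟨S, T, hST⟩ := (hW G hG T2.E (aball_of_dense T2.dense_Ed T2.ballPropOn_Ed)).trans h
  exact T2.not_complemented K S T (ContinuousLinearMap.ext hST)

end N124
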