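import Mathlib

/-!
P124, second hand-in: public definitions.
-/

open MeasureTheory Metric

namespace N124

/-- `X` and `Y` are Lipschitz isomorphic (bi-Lipschitz equivalent). -/
def LipIso (X Y : Type) [NormedAddCommGroup X] [NormedAddCommGroup Y] : Prop :=
  ∃ (f : X ≃ Y) (c C : ℝ), 0 < c ∧ c ≤ C ∧ ∀ x x' : X,
    c * ‖x - x'‖ ≤ ‖f x - f x'‖ ∧ ‖f x - f x'‖ ≤ C * ‖x - x'‖

/-- `X` is linearly isomorphic to a complemented subspace of `Y`. -/
def Complemented (X Y : Type) [NormedAddCommGroup X] [NormedSpace ℝ X] [NormedAddCommGroup Y]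
    [NormedSpace ℝ Y] : Prop :=
  ∃ (S : X →L[ℝ] Y) (T : Y →L[ℝ] X), ∀ x, T (S x) = x

/-- `X` is an `L₁`-predual: its dual is linearly isometric to `L₁(μ)` for some measure `μ`. -/
def IsL1Predual (X : Type) [NormedAddCommGroup X] [NormedSpace ℝ X] : Prop :=
  ∃ (Ω : Type) (_ : MeasurableSpace Ω) (μ : Measure Ω),
    Nonempty (StrongDual ℝ X ≃ₗᵢ[ℝ] Lp ℝ 1 μ)

/-- Finitely many closed balls that meet pairwise have a common point. -/
def BallsMeet (X : Type) [NormedAddCommGroup X] : Prop :=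
  ∀ (n : ℕ) (x : Fin (n + 1) → X) (r : Fin (n + 1) → ℝ),
    (∀ i j, (closedBall (x i) (r i) ∩ closedBall (x j) (r j)).Nonempty) →
    (⋂ i, closedBall (x i) (r i)).Nonempty

/-- `G` is a Gurarii space (almost universal disposition for finite-dimensional spaces): every
linear isometry from a subspace `A` of a finite-dimensional normed space `B` into `G` extends,
for every `ε > 0`, to a linear map on `B` that changes norms by a factor in `[1 - ε, 1 + ε]`. -/
def IsGurarii (G : Type) [NormedAddCommGroup G] [NormedSpace ℝ G] : Prop :=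
  ∀ (B : Type) [NormedAddCommGroup B] [NormedSpace ℝ B] [FiniteDimensional ℝ B]
    (A : Submodule ℝ B) (T : A →ₗᵢ[ℝ] G) (ε : ℝ), 0 < ε →
    ∃ S : B →ₗ[ℝ] G, (∀ a : A, S a = T a) ∧
      ∀ b, (1 - ε) * ‖b‖ ≤ ‖S b‖ ∧ ‖S b‖ ≤ (1 + ε) * ‖b‖

end N124
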