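import Vale.Agent.N124.MO

/-!
P124, second hand-in: extreme points of the dual ball. They form a boundary; if the dual is not
separable there are uncountably many (Simons' argument); in a space with the ball property one
can prescribe the values of finitely many extreme points on a common point of balls.
-/

open Finset Filter Topology TopologicalSpace

namespace N124

variable {X : Type} [NormedAddCommGroup X] [NormedSpace ℝ X]

/-- extreme points of the dual unit ball (nonzero) -/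
def Ext (ψ : StrongDual ℝ X) : Prop :=
  ‖ψ‖ ≤ 1 ∧ ψ ≠ 0 ∧ ∀ (φ : StrongDual ℝ X) (t : ℝ), ‖φ‖ ≤ t → ‖ψ - φ‖ ≤ 1 - t → φ = t • ψ

theorem Ext.neg {ψ : StrongDual ℝ X} (h : Ext ψ) : Ext (-ψ) := by
  refine ⟨by simpa using h.1, by simpa using h.2.1, fun φ t h1 h2 => ?_⟩
  have := h.2.2 (-φ) t (by simpa using h1) (by
    rw [← norm_neg]
    rwa [show -(ψ - -φ) = -ψ - φ by abel])
  rw [smul_neg, ← this, neg_neg]

theorem Ext.norm_eq {ψ : StrongDual ℝ X} (h : Ext ψ) : ‖ψ‖ = 1 := by
  have h1 := h.2.2 ψ ‖ψ‖ le_rfl (by simpa using h.1)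
  have h2 := congrArg norm h1
  rw [norm_smul, norm_norm] at h2
  have h3 : ‖ψ‖ ≠ 0 := norm_ne_zero_iff.2 h.2.1
  exact (mul_eq_right₀ h3).1 h2.symm

theorem Ext.of_sum {ψ : StrongDual ℝ X} (h : Ext ψ) {ι : Type*} [Fintype ι]
    (θ : ι → StrongDual ℝ X) (lam : ι → ℝ) (h1 : ∀ i, ‖θ i‖ ≤ lam i) (h2 : ∑ i, lam i = 1)
    (h3 : ∑ i, θ i = ψ) (i : ι) : θ i = lam i • ψ := by
  classical
  refine h.2.2 _ _ (h1 i) ?_
  rw [← h3, ← h2, ← add_sum_erase _ _ (mem_univ i), ← add_sum_erase _ _ (mem_univ i),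
    add_sub_cancel_left, add_sub_cancel_left]
  exact (norm_sum_le _ _).trans (sum_le_sum fun j _ => h1 j)

theorem abs_apply_le {ψ : StrongDual ℝ X} (h : ‖ψ‖ ≤ 1) (x : X) : |ψ x| ≤ ‖x‖ :=
  (ψ.le_opNorm x).trans (by simpa using mul_le_mul_of_nonneg_right h (norm_nonneg x))

/-- the extreme points form a boundary -/
theorem exists_ext (v : X) (hv : v ≠ 0) : ∃ ψ : StrongDual ℝ X, Ext ψ ∧ ψ v = ‖v‖ := by
  have : LocallyConvexSpace ℝ (WeakDual ℝ X) := WeakBilin.locallyConvexSpace
  let F : Set (WeakDual ℝ X) :=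
    (WeakDual.toStrongDual ⁻¹' Metric.closedBall 0 1) ∩ {ψ | ψ v = ‖v‖}
  have hF : IsCompact F := (WeakDual.isCompact_closedBall (0 : StrongDual ℝ X) 1).inter_right
    (isClosed_eq (WeakDual.eval_continuous v) continuous_const)
  obtain ⟨g, hg1, hg2⟩ := exists_dual_vector'' ℝ v
  obtain ⟨ψ, hψ⟩ := hF.extremePoints_nonempty ⟨StrongDual.toWeakDual g, by simpa using hg1, hg2⟩
  rw [mem_extremePoints] at hψ
  obtain ⟨⟨h1, h2⟩, h3⟩ := hψ
  have hv' : 0 < ‖v‖ := norm_pos_iff.2 hv
  have h1' : ‖WeakDual.toStrongDual ψ‖ ≤ 1 := by simpa using h1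
  have h2' : WeakDual.toStrongDual ψ v = ‖v‖ := h2
  refine ⟨WeakDual.toStrongDual ψ, ⟨h1', fun h0 => ?_, fun φ t ht ht' => ?_⟩, h2'⟩
  · rw [h0] at h2'
    simp only [zero_apply] at h2'
    linarith
  set ψ' := WeakDual.toStrongDual ψ with hψ'
  have ht0 : 0 ≤ t := (norm_nonneg _).trans ht
  have ht1 : 0 ≤ 1 - t := (norm_nonneg _).trans ht'
  rcases ht0.eq_or_lt with h | h
  · subst h
    simpa using ht
  rcases ht1.eq_or_lt with h' | h'
  · have : t = 1 := by linarith
    subst this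
    have : ψ' - φ = 0 := by simpa using ht'
    rw [one_smul]; exact (sub_eq_zero.1 this).symm
  have a1 : φ v ≤ t * ‖v‖ := (le_abs_self _).trans ((φ.le_opNorm v).trans (by gcongr))
  have a2 : (ψ' - φ) v ≤ (1 - t) * ‖v‖ :=
    (le_abs_self _).trans (((ψ' - φ).le_opNorm v).trans (by gcongr))
  rw [sub_apply, h2'] at a2
  have a3 : φ v = t * ‖v‖ := by linarith
  have hw : ∀ θ : StrongDual ℝ X, WeakDual.toStrongDual (StrongDual.toWeakDual θ) = θ :=
    fun θ => rfl
  have key := h3 (StrongDual.toWeakDual (t⁻¹ • φ)) ⟨by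
      simp only [Set.mem_preimage, hw, mem_closedBall_zero_iff,
        norm_smul, norm_inv, Real.norm_of_nonneg ht0]
      rwa [inv_mul_le_iff₀ h, mul_one], by
      show (t⁻¹ • φ) v = ‖v‖
      rw [smul_apply, a3, smul_eq_mul]; field_simp⟩
    (StrongDual.toWeakDual ((1 - t)⁻¹ • (ψ' - φ))) ⟨by
      simp only [Set.mem_preimage, hw, mem_closedBall_zero_iff,
        norm_smul, norm_inv, Real.norm_of_nonneg ht1]
      rwa [inv_mul_le_iff₀ h', mul_one], by
      show ((1 - t)⁻¹ • (ψ' - φ)) v = ‖v‖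
      rw [smul_apply, sub_apply, a3, h2', smul_eq_mul]; field_simp⟩
    ⟨t, 1 - t, h, h', by ring, by
      apply WeakDual.toStrongDual.injective
      simp only [map_add, map_smul, hw, smul_smul,
        mul_inv_cancel₀ h.ne', mul_inv_cancel₀ h'.ne', one_smul]
      rw [← hψ']; abel⟩
  have k1 : t⁻¹ • φ = ψ' := by
    have := congrArg WeakDual.toStrongDual key.1
    simpa using this
  rw [← k1, smul_smul, mul_inv_cancel₀ h.ne', one_smul]

/-- Simons' argument -/
theorem simons [CompleteSpace X] (C : ℕ → Set X) (hanti : ∀ k, C (k + 1) ⊆ C k)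
    (hconv : ∀ k, Convex ℝ (C k)) (hne : ∀ k, (C k).Nonempty) (hb : ∀ k, ∀ x ∈ C k, ‖x‖ ≤ 1)
    (hA : ∀ x ∈ C 0, 1 / 6 ≤ ‖x‖) :
    ∃ (y : ℕ → X) (v : X), (∀ k, y k ∈ C k) ∧ v ≠ 0 ∧
      ∀ φ : StrongDual ℝ X, ‖φ‖ ≤ 1 → φ v = ‖v‖ → ∀ k, 0 < φ (y k) := by
  set l : ℝ := 1 / 60 with hl
  have hl0 : 0 < l := by norm_num [hl]
  have pick : ∀ (k : ℕ) (w : X), ∃ y ∈ C k, ∀ y' ∈ C k,
      ‖w + l ^ k • y‖ ≤ ‖w + l ^ k • y'‖ + l ^ (k + 1) * (1 / 2) ^ k / 48 := by
    intro k w
    have hη : 0 < l ^ (k + 1) * (1 / 2) ^ k / 48 := by positivity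
    have hbd : BddBelow ((fun y => ‖w + l ^ k • y‖) '' C k) :=
      ⟨0, by rintro _ ⟨y, -, rfl⟩; exact norm_nonneg _⟩
    obtain ⟨_, ⟨y, hy, rfl⟩, hlt⟩ := exists_lt_of_csInf_lt ((hne k).image _)
      (lt_add_of_pos_right (sInf ((fun y => ‖w + l ^ k • y‖) '' C k)) hη)
    refine ⟨y, hy, fun y' hy' => ?_⟩
    have := csInf_le hbd ⟨y', hy', rfl⟩
    simp only at hlt this
    linarith
  choose Y hY hmin using pick
  let v : ℕ → X := fun k => Nat.rec 0 (fun k w => w + l ^ k • Y k w) k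
  let y : ℕ → X := fun k => Y k (v k)
  have hv : ∀ k, v (k + 1) = v k + l ^ k • y k := fun k => rfl
  have hy : ∀ k, y k ∈ C k := fun k => hY k _
  have hd : ∀ k, l ^ k * (1 / 12 + (1 / 2) ^ k / 12) ≤ ‖v (k + 1)‖ - ‖v k‖ := by
    intro k
    induction k with
    | zero =>
      have := hA _ (hy 0)
      have h0 : v 0 = 0 := rfl
      rw [hv, h0]
      norm_num
      linarith
    | succ k ih =>
      have hm : (1 / (1 + l)) • y k + (l / (1 + l)) • y (k + 1) ∈ C k :=
        hconv k (hy k) (hanti k (hy (k + 1))) (by positivity) (by positivity) (by field_simp)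
      have h1 := hmin k (v k) _ hm
      have h2 : v k + l ^ k • ((1 / (1 + l)) • y k + (l / (1 + l)) • y (k + 1))
          = (l / (1 + l)) • v k + (1 / (1 + l)) • v (k + 1 + 1) := by
        rw [hv (k + 1), hv k]
        have : (1 + l) ≠ 0 := by positivity
        have e1 : (1 : ℝ) = l / (1 + l) + 1 / (1 + l) := by field_simp; ring
        rw [pow_succ]
        conv_lhs => rw [← one_smul ℝ (v k), e1]
        module
      rw [h2] at h1
      have h3 : ‖(l / (1 + l)) • v k + (1 / (1 + l)) • v (k + 1 + 1)‖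
          ≤ l / (1 + l) * ‖v k‖ + 1 / (1 + l) * ‖v (k + 1 + 1)‖ := by
        refine (norm_add_le _ _).trans (le_of_eq ?_)
        rw [norm_smul, norm_smul, Real.norm_of_nonneg (by positivity),
          Real.norm_of_nonneg (by positivity)]
      have h4 : ‖v (k + 1)‖ ≤ l / (1 + l) * ‖v k‖ + 1 / (1 + l) * ‖v (k + 1 + 1)‖
          + l ^ (k + 1) * (1 / 2) ^ k / 48 := by
        rw [hv]; exact h1.trans (by linarith)
      have hp : 0 ≤ l ^ k * (1 / 2) ^ k := by positivity
      rw [pow_succ l k] at h4 ⊢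
      rw [pow_succ (1 / 2 : ℝ) k]
      have e1 : l / (1 + l) = 1 / 61 := by rw [hl]; norm_num
      have e2 : 1 / (1 + l) = 60 / 61 := by rw [hl]; norm_num
      rw [e1, e2] at h4
      generalize l ^ k = a at h4 ih hp ⊢
      generalize ((1 : ℝ) / 2) ^ k = b at h4 ih hp ⊢
      rw [hl] at h4 ⊢
      linarith
  have hstep : ∀ k, dist (v k) (v (k + 1)) ≤ 1 * l ^ k := by
    intro k
    rw [hv, dist_eq_norm, sub_add_cancel_left, norm_neg, norm_smul,
      Real.norm_of_nonneg (by positivity), mul_comm]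
    exact mul_le_mul_of_nonneg_right (hb k _ (hy k)) (by positivity)
  have hl1 : l < 1 := by norm_num [hl]
  obtain ⟨w, hw⟩ := cauchySeq_tendsto_of_complete (cauchySeq_of_le_geometric l 1 hl1 hstep)
  have htail : ∀ k, ‖w - v (k + 1)‖ ≤ l ^ k / 59 := by
    intro k
    have := dist_le_of_le_geometric_of_tendsto l 1 hl1 hstep hw (k + 1)
    rw [dist_comm, dist_eq_norm] at this
    refine this.trans (le_of_eq ?_)
    rw [pow_succ]
    generalize l ^ k = a
    rw [hl]; ring
  have hlow : ∀ k, ‖v k‖ + l ^ k / 12 - l ^ k / 59 ≤ ‖w‖ := by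
    intro k
    have h1 := hd k
    have h2 := htail k
    have h3 := norm_sub_norm_le (v (k + 1)) w
    rw [norm_sub_rev] at h3
    have hp : 0 ≤ l ^ k * (1 / 2) ^ k := by positivity
    nlinarith
  refine ⟨y, w, hy, fun h0 => ?_, fun φ hφ hφw k => ?_⟩
  · have := hlow 0
    rw [h0, norm_zero] at this
    have h2 := norm_nonneg (v 0)
    norm_num at this
    linarith
  · have h1 : φ w = φ (v k) + l ^ k * φ (y k) + φ (w - v (k + 1)) := by
      rw [map_sub, hv, map_add, map_smul, smul_eq_mul]; ring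
    have h2 := (le_abs_self _).trans (abs_apply_le hφ (v k))
    have h3 := (le_abs_self _).trans ((abs_apply_le hφ (w - v (k + 1))).trans (htail k))
    have h4 := hlow k
    have hp : 0 < l ^ k := by positivity
    have h5 : 0 < l ^ k * φ (y k) := by linarith
    exact (pos_iff_pos_of_mul_pos h5).1 hp

/-- a nonseparable dual has uncountably many extreme points -/
theorem ext_uncountable [CompleteSpace X] (h : ¬ SeparableSpace (StrongDual ℝ X)) :
    ¬ {ψ : StrongDual ℝ X | Ext ψ}.Countable := by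
  intro hc
  obtain ⟨ψ, hψ⟩ := (hc.insert 0).exists_eq_range (Set.insert_nonempty _ _)
  let N : Submodule ℝ (StrongDual ℝ X) := (Submodule.span ℝ (Set.range ψ)).topologicalClosure
  have hN : ∃ f, f ∉ N := by
    by_contra hcon
    push Not at hcon
    refine h (isSeparable_univ_iff.1 ?_)
    exact ((Set.countable_range ψ).isSeparable.span (R := ℝ)).closure.mono fun f _ => hcon f
  obtain ⟨f, hf3, hf⟩ := riesz_lemma_of_norm_lt (𝕜 := ℝ) (c := 2) (by norm_num) (R := 3)
    (by norm_num) (Submodule.isClosed_topologicalClosure _) hN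
  let C : ℕ → Set X := fun k => {x | ‖x‖ ≤ 1 ∧ 1 / 2 ≤ f x ∧ ∀ j < k, ψ j x = 0}
  have hne : ∀ k, (C k).Nonempty := by
    intro k
    let Z : Submodule ℝ X := ⨅ j : Fin k, LinearMap.ker (ψ j : X →ₗ[ℝ] ℝ)
    obtain ⟨g, hg, hgn⟩ := exists_extension_norm_eq Z (f.comp Z.subtypeL)
    have hm : ((f - g : StrongDual ℝ X) : X →ₗ[ℝ] ℝ) ∈
        Submodule.span ℝ (Set.range fun j : Fin k => (ψ j : X →ₗ[ℝ] ℝ)) := by
      refine mem_span_of_iInf_ker_le_ker fun x hx => ?_
      have := hg ⟨x, hx⟩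
      simp only [ContinuousLinearMap.comp_apply, Submodule.subtypeL_apply] at this
      simp [LinearMap.mem_ker, this]
    obtain ⟨c, hc⟩ := (Submodule.mem_span_range_iff_exists_fun ℝ).1 hm
    have hfg : f - g = ∑ j : Fin k, c j • ψ j := by
      ext x
      have := congrArg (fun L : X →ₗ[ℝ] ℝ => L x) hc
      simpa using this.symm
    have hmem : f - g ∈ N := by
      refine Submodule.le_topologicalClosure _ ?_
      rw [hfg]
      exact Submodule.sum_mem _ fun j _ =>
        Submodule.smul_mem _ _ (Submodule.subset_span ⟨j, rfl⟩)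
    have h1 := hf _ hmem
    rw [sub_sub_cancel, hgn] at h1
    obtain ⟨z, hz1, hz2⟩ := (f.comp Z.subtypeL).exists_lt_apply_of_lt_opNorm
      (r := 1 / 2) (by linarith)
    have hz3 : ∀ j < k, ψ j (z : X) = 0 := fun j hj =>
      (Submodule.mem_iInf _).1 z.2 ⟨j, hj⟩
    have hz1' : ‖(z : X)‖ ≤ 1 := hz1.le
    simp only [ContinuousLinearMap.comp_apply, Submodule.subtypeL_apply, Real.norm_eq_abs] at hz2
    rcases lt_abs.1 hz2 with h2 | h2
    · exact ⟨z, hz1', h2.le, hz3⟩
    · exact ⟨-z, by simpa using hz1', by simpa using h2.le, fun j hj => by simp [hz3 j hj]⟩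
  obtain ⟨y, v, hy, hv, hφ⟩ := simons C
    (fun k x hx => ⟨hx.1, hx.2.1, fun j hj => hx.2.2 j (by omega)⟩)
    (fun k x hx x' hx' s t hs ht hst => ⟨by
      refine (norm_add_le _ _).trans ?_
      rw [norm_smul, norm_smul, Real.norm_of_nonneg hs, Real.norm_of_nonneg ht]
      nlinarith [hx.1, hx'.1], by
      rw [map_add, map_smul, map_smul, smul_eq_mul, smul_eq_mul]
      nlinarith [hx.2.1, hx'.2.1], fun j hj => by
      rw [map_add, map_smul, map_smul, hx.2.2 j hj, hx'.2.2 j hj]; simp⟩)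
    hne (fun k x hx => hx.1) (fun x hx => by
      have h1 := (le_abs_self _).trans (f.le_opNorm x)
      have h2 := mul_le_mul_of_nonneg_right hf3 (norm_nonneg x)
      linarith [hx.2.1])
  obtain ⟨χ, hχ, hχv⟩ := exists_ext v hv
  have : χ ∈ Set.range ψ := by rw [← hψ]; exact Set.mem_insert_of_mem _ hχ
  obtain ⟨j, rfl⟩ := this
  have h1 := hφ _ hχ.1 hχv (j + 1)
  rw [(hy (j + 1)).2.2 j (Nat.lt_succ_self j)] at h1
  exact lt_irrefl _ h1

/-- one constraint `c ≤ ψ y` is replaced by a ball -/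
theorem ext_cut {ψ : StrongDual ℝ X} (hψ : Ext ψ) {ι κ : Type} [Fintype ι] [Fintype κ]
    [Nonempty κ] (x : ι → X) (r : ι → ℝ) (c : ℝ) (hc : ∀ i, c ≤ ψ (x i) + r i)
    (χ : κ → StrongDual ℝ X) (hχ : ∀ k, ‖χ k‖ ≤ 1) (d : κ → ℝ) (hd : ∀ k, χ k = -ψ → d k ≤ 0)
    (α : ℝ) (hα : 0 < α) :
    ∃ z, (∀ i, ‖z - x i‖ - ψ z + (c - r i) < α) ∧ ∀ k, -(ψ z + χ k z) + d k < α := by
  by_contra hcon
  obtain ⟨φ, lam, h0, h1, h2, h3, h4⟩ := minimax (ι := ι ⊕ κ) (Sum.elim (fun _ => 1) fun _ => 0)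
    (by rintro (i | k) <;> simp) (Sum.elim x fun _ => 0) (Sum.elim (fun _ => ψ) fun k => ψ + χ k)
    (Sum.elim (fun i => c - r i) d) α (fun z => by
      by_contra hz
      push Not at hz
      refine hcon ⟨z, fun i => ?_, fun k => ?_⟩
      · simpa using hz (Sum.inl i)
      · simpa using hz (Sum.inr k))
  have hφ0 : ∀ k, φ (Sum.inr k) = 0 := fun k => by simpa using h2 (Sum.inr k)
  have key := hψ.of_sum (Sum.elim (fun i => φ (Sum.inl i)) fun k => -(lam (Sum.inr k) • χ k)) lam
    (by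
      rintro (i | k)
      · simpa using h2 (Sum.inl i)
      · simp only [Sum.elim_inr, norm_neg, norm_smul, Real.norm_of_nonneg (h0 _)]
        simpa using mul_le_mul_of_nonneg_left (hχ k) (h0 (Sum.inr k))) h1 (by
      rw [Fintype.sum_sum_type] at h1 h3 ⊢
      rw [Fintype.sum_sum_type] at h3
      simp only [Sum.elim_inl, Sum.elim_inr, hφ0, sum_const_zero, add_zero, smul_add,
        sum_add_distrib, ← sum_smul, sum_neg_distrib] at h3 ⊢
      rw [h3, ← add_assoc, ← add_smul, h1, one_smul]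
      abel)
  have hle : ∑ j, (lam j * Sum.elim (fun i => c - r i) d j
      - φ j (Sum.elim x (fun _ => 0) j)) ≤ 0 := by
    refine sum_nonpos ?_
    rintro (i | k) _
    · have := key (Sum.inl i)
      simp only [Sum.elim_inl] at this ⊢
      rw [this, smul_apply, smul_eq_mul]
      nlinarith [h0 (Sum.inl i), hc i]
    · have := key (Sum.inr k)
      simp only [Sum.elim_inr, map_zero, sub_zero] at this ⊢
      rcases (h0 (Sum.inr k)).eq_or_lt with h | h
      · rw [← h, zero_mul]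
      · have h5 : χ k = -ψ := by
          ext z
          have := congrArg (fun L : StrongDual ℝ X => L z) this
          simp only [neg_apply, smul_apply, smul_eq_mul] at this ⊢
          have h6 : lam (Sum.inr k) * (χ k z + ψ z) = 0 := by linarith
          have h7 := (mul_eq_zero.1 h6).resolve_left h.ne'
          linarith
        exact mul_nonpos_of_nonneg_of_nonpos h.le (hd k h5)
  linarith

/-- common point of balls with lower bounds for finitely many extreme points -/
theorem interp (hX : ABall X) {κ : Type} (ψ : κ → StrongDual ℝ X) (hψ : ∀ k, Ext (ψ k))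
    (c : κ → ℝ) (hcc : ∀ k l, ψ l = -ψ k → c k + c l ≤ 0) (ε : ℝ) (hε : 0 < ε) (s : Finset κ) :
    ∀ (ι : Type) [Fintype ι] (x : ι → X) (r : ι → ℝ), (∀ i j, ‖x i - x j‖ ≤ r i + r j) →
      (∀ k ∈ s, ∀ i, c k ≤ ψ k (x i) + r i) →
      ∃ y, (∀ i, ‖y - x i‖ ≤ r i + ε) ∧ ∀ k ∈ s, c k - 2 * ε ≤ ψ k y := by
  classical
  induction s using Finset.induction_on with
  | empty =>
    intro ι _ x r hx _
    obtain ⟨y, hy⟩ := hX ι x r hx ε hε
    exact ⟨y, hy, by simp⟩
  | insert k s hk ih =>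
    intro ι _ x r hx hc
    obtain ⟨z, hz1, hz2⟩ := ext_cut (hψ k) (κ := Option s) x r (c k)
      (hc k (mem_insert_self _ _)) (fun o => o.elim 0 fun l => ψ l)
      (by rintro (_ | l); · simp
          · exact (hψ l).1)
      (fun o => o.elim (c k) fun l => c k + c l)
      (by rintro (_ | l) h
          · exact absurd (neg_eq_zero.1 h.symm) (hψ k).2.1
          · exact hcc k l h) ε hε
    have hR := hz2 none
    simp only [Option.elim_none, zero_apply, add_zero] at hR
    obtain ⟨y, hy1, hy2⟩ := ih (Option ι) (fun o => o.elim z x)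
      (fun o => o.elim (ψ k z - c k + ε) r) (by
        rintro (_ | i) (_ | j)
        · simp only [Option.elim_none, sub_self, norm_zero]; linarith
        · simp only [Option.elim_none, Option.elim_some]; linarith [hz1 j]
        · simp only [Option.elim_none, Option.elim_some]; rw [norm_sub_rev]; linarith [hz1 i]
        · exact hx i j) (by
        rintro l hl (_ | i)
        · have := hz2 (some ⟨l, hl⟩)
          simp only [Option.elim_some, Option.elim_none] at this ⊢
          linarith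
        · exact hc l (mem_insert_of_mem hl) i)
    refine ⟨y, fun i => hy1 (some i), fun l hl => ?_⟩
    rcases mem_insert.1 hl with rfl | hl
    · have h1 := hy1 none
      have h2 := abs_apply_le (hψ l).1 (y - z)
      rw [map_sub] at h2
      simp only [Option.elim_none] at h1
      linarith [(abs_le.1 h2).1]
    · exact hy2 l hl

/-- common point of balls with prescribed values of finitely many extreme points -/
theorem interp2 (hX : ABall X) {κ : Type} [Fintype κ] (ψ : κ → StrongDual ℝ X)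
    (hψ : ∀ k, Ext (ψ k)) (hne : ∀ k l, k ≠ l → ψ k ≠ ψ l ∧ ψ k ≠ -ψ l) (e : κ → ℝ)
    {ι : Type} [Fintype ι] (x : ι → X) (r : ι → ℝ) (hx : ∀ i j, ‖x i - x j‖ ≤ r i + r j)
    (he : ∀ k i, |e k - ψ k (x i)| ≤ r i) (ε : ℝ) (hε : 0 < ε) :
    ∃ y, (∀ i, ‖y - x i‖ ≤ r i + ε) ∧ ∀ k, |ψ k y - e k| ≤ 2 * ε := by
  have hself : ∀ k, ψ k ≠ -ψ k := fun k h => (hψ k).2.1 (by
    have : (2 : ℝ) • ψ k = 0 := by rw [two_smul]; exact eq_neg_iff_add_eq_zero.1 h
    simpa using this)
  obtain ⟨y, hy1, hy2⟩ := interp hX (κ := κ × Bool) (fun p => cond p.2 (ψ p.1) (-ψ p.1))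
    (by rintro ⟨k, _ | _⟩
        · exact (hψ k).neg
        · exact hψ k)
    (fun p => cond p.2 (e p.1) (-e p.1))
    (by rintro ⟨k, _ | _⟩ ⟨l, _ | _⟩ h <;> simp only [cond_true, cond_false] at h ⊢
        · by_cases hkl : k = l
          · subst hkl; exact absurd (by simpa using h.symm) (hself k)
          · exact absurd (by simpa using h.symm) (hne k l hkl).2
        · by_cases hkl : k = l
          · subst hkl; simp
          · exact absurd (by simpa using h.symm) (hne k l hkl).1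
        · by_cases hkl : k = l
          · subst hkl; simp
          · exact absurd (by simpa using h.symm) (hne k l hkl).1
        · by_cases hkl : l = k
          · subst hkl; exact absurd h (hself l)
          · exact absurd h (hne l k hkl).2)
    ε hε univ ι x r hx (by
      rintro ⟨k, _ | _⟩ _ i <;> simp only [cond_true, cond_false, neg_apply]
      · linarith [(abs_le.1 (he k i)).1]
      · linarith [(abs_le.1 (he k i)).2])
  refine ⟨y, hy1, fun k => abs_le.2 ⟨?_, ?_⟩⟩
  · have := hy2 (k, true) (mem_univ _)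
    simp only [cond_true] at this
    linarith
  · have := hy2 (k, false) (mem_univ _)
    simp only [cond_false, neg_apply] at this
    linarith

end N124
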