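import Vale.Agent.N124.Plan

/-!
P124, second hand-in: a separable Gurarii space exists.
-/

open TopologicalSpace Metric Set Filter
open scoped BoundedContinuousFunction

namespace N124

/-- Hahn-Banach along a linear map. -/
theorem hb {E Z : Type} [AddCommGroup E] [Module ℝ E] [NormedAddCommGroup Z] [NormedSpace ℝ Z]
    (i : E →ₗ[ℝ] Z) (α : E →ₗ[ℝ] ℝ) {C : ℝ} (hC : 0 ≤ C) (h : ∀ e, |α e| ≤ C * ‖i e‖) :
    ∃ g : StrongDual ℝ Z, ‖g‖ ≤ C ∧ ∀ e, g (i e) = α e := by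
  have k : ∀ e, α.compLeftInverse i ⟨i e, e, rfl⟩ = α e := fun e =>
    LinearMap.compLeftInverse_apply_of_bdd _ _ ⟨C, h⟩ e _ rfl
  obtain ⟨g, h1, h2⟩ := exists_extension_norm_eq (LinearMap.range i) (α.compLeftInverse i)
  refine ⟨g, h2.trans_le (ContinuousLinearMap.opNorm_le_bound _ hC ?_), fun e =>
    (h1 ⟨i e, e, rfl⟩).trans (k e)⟩
  rintro ⟨_, e, rfl⟩
  rw [k]
  exact h e

theorem l1_rep {E : Type} [AddCommGroup E] [Module ℝ E] (t : ℕ → E →ₗ[ℝ] ℝ) (N : ℕ)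
    (α : E →ₗ[ℝ] ℝ) (h : ∀ e, ∀ M ≥ (0 : ℝ), (∀ j < N, |t j e| ≤ M) → |α e| ≤ M) :
    ∃ γ : ℕ → ℝ, ∑ i ∈ Finset.range N, |γ i| ≤ 1 ∧
      ∀ e, α e = ∑ i ∈ Finset.range N, γ i * t i e := by
  obtain ⟨g, h1, h2⟩ := hb (LinearMap.pi fun j : Fin N => t j) α zero_le_one fun e => by
    rw [one_mul]
    exact h e _ (norm_nonneg _) fun j hj =>
      norm_le_pi_norm (LinearMap.pi (fun j : Fin N => t j) e) ⟨j, hj⟩
  let γ : Fin N → ℝ := fun i => g fun j => if i = j then 1 else 0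
  have e : ∀ x, g x = ∑ i, x i * γ i := fun x => LinearMap.pi_apply_eq_sum_univ g.toLinearMap x
  refine ⟨fun i => if h : i < N then γ ⟨i, h⟩ else 0, ?_, fun x => ?_⟩
  · have k := (le_abs_self _).trans ((g.le_opNorm fun i => SignType.sign (γ i)).trans
      (mul_le_one₀ h1 (norm_nonneg _) ((pi_norm_le_iff_of_nonneg zero_le_one).2 fun i => by
        rcases lt_trichotomy (γ i) 0 with c | c | c <;> simp [c])))
    rw [e] at k
    rw [Finset.sum_range]
    simpa only [Fin.is_lt, dite_true, sign_mul_self] using k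
  · rw [← h2, e, Finset.sum_range]
    simp only [Fin.is_lt, dite_true, LinearMap.pi_apply, mul_comm]

/-- The rows of a matrix have norm at most one and are dense, with repetitions. -/
structure Mat (c : ℕ → ℕ → ℝ) : Prop where
  le : ∀ j, ∑ i ∈ Finset.range j, |c j i| ≤ 1
  dense : ∀ (N : ℕ) (γ : ℕ → ℝ), ∑ i ∈ Finset.range N, |γ i| ≤ 1 → ∀ δ > (0 : ℝ),
    ∃ᶠ j in atTop, N ≤ j ∧ (∀ i < N, |c j i - γ i| ≤ δ) ∧ ∀ i ≥ N, c j i = 0

theorem exists_mat : ∃ c, Mat c := by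
  let K := fun N : ℕ => {γ : Fin N → ℝ // ∑ i, |γ i| ≤ 1}
  have : ∀ N, Nonempty (K N) := fun N => ⟨0, by simp⟩
  let r : ℕ × ℕ → ℕ → ℝ := fun p i =>
    if h : i < p.1 then (denseSeq (K p.1) p.2).1 ⟨i, h⟩ else 0
  have r0 : ∀ p, ∀ i ≥ p.1, r p i = 0 := fun p i hi => dif_neg (not_lt.2 hi)
  refine ⟨fun j => r j.unpair.1.unpair, fun j => ?_, fun N γ hγ δ hδ =>
    frequently_atTop.2 fun M => ?_⟩
  · have h : j.unpair.1.unpair.1 ≤ j := (Nat.unpair_left_le _).trans (Nat.unpair_left_le _)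
    generalize j.unpair.1.unpair = p at h
    rw [← Finset.sum_subset (Finset.range_mono h) fun i _ hi => by
      rw [r0 p i (by simpa using hi), abs_zero], Finset.sum_range]
    simpa only [r, Fin.is_lt, dite_true] using (denseSeq (K p.1) p.2).2
  · rw [Finset.sum_range] at hγ
    obtain ⟨n, hn⟩ := (denseRange_denseSeq (K N)).exists_dist_lt ⟨fun i => γ i, hγ⟩ hδ
    refine ⟨(N.pair n).pair M, Nat.right_le_pair _ _,
      (Nat.left_le_pair _ _).trans (Nat.left_le_pair _ _), fun i hi => ?_, fun i hi => ?_⟩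
    · simp only [Nat.unpair_pair, r, dif_pos hi]
      rw [← Real.dist_eq, dist_comm]
      exact (dist_le_pi_dist (fun i : Fin N => γ i) _ ⟨i, hi⟩).trans hn.le
    · simp only [Nat.unpair_pair]
      exact r0 (N, n) i hi

variable {c : ℕ → ℕ → ℝ}

/-- The bounded sequences that satisfy the recursion from `N` on. -/
def FF (c : ℕ → ℕ → ℝ) (N : ℕ) : Submodule ℝ (ℕ →ᵇ ℝ) where
  carrier := {f | ∀ j ≥ N, f j = ∑ i ∈ Finset.range j, c j i * f i}
  add_mem' := fun {f g} hf hg j hj => by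
    simp only [BoundedContinuousFunction.add_apply, mul_add, Finset.sum_add_distrib]
    rw [← hf j hj, ← hg j hj]
  zero_mem' := fun j _ => by simp
  smul_mem' := fun r f hf j hj => by
    simp only [BoundedContinuousFunction.smul_apply, smul_eq_mul, mul_left_comm _ r]
    rw [← Finset.mul_sum, ← hf j hj]

theorem FF_mono : Monotone (FF c) := fun _ _ h _ hf j hj => hf j (h.trans hj)

theorem rec_le (hc : Mat c) {f : ℕ → ℝ} {N : ℕ} {M : ℝ} (M0 : 0 ≤ M) (h : ∀ j < N, |f j| ≤ M)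
    (hf : ∀ j ≥ N, f j = ∑ i ∈ Finset.range j, c j i * f i) (j : ℕ) : |f j| ≤ M := by
  induction j using Nat.strong_induction_on with
  | _ j ih =>
    refine (lt_or_ge j N).elim (h j) fun hj => ?_
    rw [hf j hj]
    refine (Finset.abs_sum_le_sum_abs _ _).trans ((Finset.sum_le_sum fun i hi => ?_).trans
      ((Finset.sum_mul _ _ M).ge.trans (mul_le_of_le_one_left M0 (hc.le j))))
    rw [abs_mul]
    exact mul_le_mul_of_nonneg_left (ih i (Finset.mem_range.1 hi)) (abs_nonneg _)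

theorem FF_norm (hc : Mat c) {N : ℕ} {f : ℕ →ᵇ ℝ} (hf : f ∈ FF c N) {M : ℝ} (M0 : 0 ≤ M)
    (h : ∀ j < N, |f j| ≤ M) : ‖f‖ ≤ M :=
  (BoundedContinuousFunction.norm_le M0).2 (rec_le hc M0 h hf)

/-- Evaluation. -/
noncomputable def ev (j : ℕ) : (ℕ →ᵇ ℝ) →ₗ[ℝ] ℝ :=
  (BoundedContinuousFunction.evalCLM ℝ j).toLinearMap

theorem FF_fin (hc : Mat c) (N : ℕ) : FiniteDimensional ℝ (FF c N) := by
  refine Module.Finite.of_injective (LinearMap.pi fun j : Fin N => (ev j).comp (FF c N).subtype)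
    ((injective_iff_map_eq_zero _).2 fun f hf => Subtype.ext (norm_le_zero_iff.1
      (FF_norm hc f.2 le_rfl fun j hj => ?_)))
  exact abs_nonpos_iff.2 (congrFun hf ⟨j, hj⟩)

theorem exists_rec {V : Type} [AddCommGroup V] [Module ℝ V] (c : ℕ → ℕ → ℝ) (N : ℕ) (b : ℕ → V) :
    ∃ s : ℕ → V, (∀ j < N, s j = b j) ∧ ∀ j ≥ N, s j = ∑ i ∈ Finset.range j, c j i • s i := by
  refine ⟨WellFounded.fix wellFounded_lt fun j ih =>
    if j < N then b j else ∑ i : Fin j, c j i • ih i i.2, fun j hj => ?_, fun j hj => ?_⟩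
  · rw [WellFounded.fix_eq, if_pos hj]
  · rw [WellFounded.fix_eq, if_neg (not_lt.2 hj), Finset.sum_range]

section

variable {B : Type} [NormedAddCommGroup B] [NormedSpace ℝ B] [FiniteDimensional ℝ B]

/-- An almost isometry into `FF c N` extends. -/
theorem ext_FF (hc : Mat c) (A : Submodule ℝ B) {N : ℕ} (T : A →ₗ[ℝ] ℕ →ᵇ ℝ)
    (hT : ∀ a, T a ∈ FF c N) {δ : ℝ} (d0 : 0 < δ) (d1 : δ ≤ 1)
    (h : ∀ a, (1 - δ) * ‖a‖ ≤ ‖T a‖ ∧ ‖T a‖ ≤ (1 + δ) * ‖a‖) :
    ∃ (N' : ℕ) (S : B →ₗ[ℝ] ℕ →ᵇ ℝ), (∀ b, S b ∈ FF c N') ∧ (∀ a : A, S a = T a) ∧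
      ∀ b, (1 - 4 * δ) * ‖b‖ ≤ ‖S b‖ ∧ ‖S b‖ ≤ (1 + δ) * ‖b‖ := by
  have d2 : 0 ≤ 1 - δ := by linarith
  let t : ℕ → A →ₗ[ℝ] ℝ := fun j => (ev j).comp T
  have ht : ∀ j a, |t j a| ≤ (1 + δ) * ‖a‖ := fun j a =>
    ((T a).norm_coe_le_norm j).trans (h a).2
  have : Nonempty (closedBall (0 : StrongDual ℝ B) 1) := ⟨0, mem_closedBall_self zero_le_one⟩
  have := FiniteDimensional.proper_real (StrongDual ℝ B)
  let β : ℕ → StrongDual ℝ B := fun k => (denseSeq (closedBall (0 : StrongDual ℝ B) 1) k).1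
  have hβ : ∀ k b, |β k b| ≤ ‖b‖ := fun k b => ((β k).le_opNorm b).trans
    (mul_le_of_le_one_left (norm_nonneg _) (mem_closedBall_zero_iff.1 (Subtype.prop _)))
  obtain ⟨Q, hQ⟩ := (isCompact_closedBall (0 : StrongDual ℝ B) 1).elim_finite_subcover
    (fun k => ball (β k) δ) (fun k => isOpen_ball) fun φ hφ => by
      obtain ⟨k, hk⟩ := (denseRange_denseSeq _).exists_dist_lt
        (⟨φ, hφ⟩ : closedBall (0 : StrongDual ℝ B) 1) d0
      exact mem_iUnion.2 ⟨k, hk⟩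
  let α : ℕ → A →ₗ[ℝ] ℝ := fun k => ((1 - δ) • β k).toLinearMap.comp A.subtype
  choose γ g1 g2 using fun k => l1_rep t N (α k) fun a M M0 hM => by
    refine le_trans ?_ ((h a).1.trans (FF_norm hc (hT a) M0 hM))
    show |(1 - δ) * β k a| ≤ _
    rw [abs_mul, abs_of_nonneg d2]
    exact mul_le_mul_of_nonneg_left (hβ k a) d2
  obtain ⟨φ, f1, f2⟩ := extraction_forall_of_frequently fun k =>
    hc.dense N (γ k) (g1 k) (δ / (N + 1)) (by positivity)
  have f3 : ∀ k a, |(t (φ k) - α k) a| ≤ 2 * δ * ‖A.subtype a‖ := fun k a => by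
    obtain ⟨k1, k2, k3⟩ := f2 k
    have e : t (φ k) a = ∑ i ∈ Finset.range N, c (φ k) i * t i a :=
      (hT a _ k1).trans (Finset.sum_subset (Finset.range_mono k1) fun i _ hi => by
        rw [k3 i (by simpa using hi), zero_mul]).symm
    rw [LinearMap.sub_apply, e, g2, ← Finset.sum_sub_distrib]
    refine (Finset.abs_sum_le_sum_abs _ _).trans ((Finset.sum_le_card_nsmul _ _
      (δ / (N + 1) * ((1 + δ) * ‖a‖)) fun i hi => ?_).trans ?_)
    · rw [← sub_mul, abs_mul]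
      exact mul_le_mul (k2 i (Finset.mem_range.1 hi)) (ht i a) (abs_nonneg _) (by positivity)
    · rw [Finset.card_range, nsmul_eq_mul, ← mul_assoc, ← mul_assoc]
      refine mul_le_mul_of_nonneg_right ?_ (norm_nonneg a)
      have : N * (δ / (N + 1)) ≤ δ := by
        rw [← mul_div_assoc, div_le_iff₀ (by positivity)]
        nlinarith
      nlinarith
  have key : ∀ j, ∃ b : StrongDual ℝ B, ‖b‖ ≤ 1 + δ ∧ (∀ a : A, b a = t j a) ∧
      ∀ k, φ k = j → ‖b - (1 - δ) • β k‖ ≤ 2 * δ := fun j => by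
    by_cases hj : ∃ k, φ k = j
    · obtain ⟨k, rfl⟩ := hj
      obtain ⟨g, k1, k2⟩ := hb A.subtype _ (by positivity) (f3 k)
      refine ⟨(1 - δ) • β k + g, (norm_add_le _ _).trans ?_, fun a => ?_, fun k' e => ?_⟩
      · have := mul_le_of_le_one_right d2
          ((β k).opNorm_le_bound zero_le_one fun b => by simpa using hβ k b)
        rw [norm_smul, Real.norm_of_nonneg d2]
        linarith
      · exact (congrArg (α k a + ·) (k2 a)).trans (add_sub_cancel _ _)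
      · rwa [f1.injective e, add_sub_cancel_left]
    · obtain ⟨g, k1, k2⟩ := hb A.subtype _ (by positivity) (ht j)
      exact ⟨g, k1, k2, fun k e => absurd ⟨k, e⟩ hj⟩
  choose b b1 b2 b3 using key
  obtain ⟨s, s1, s2⟩ := exists_rec c (N + φ (Q.sup id) + 1) b
  have s3 : ∀ x, ∀ j ≥ N + φ (Q.sup id) + 1, s j x = ∑ i ∈ Finset.range j, c j i * s i x :=
    fun x j hj => by
      rw [s2 j hj, _root_.sum_apply]
      rfl
  have s4 : ∀ x j, |s j x| ≤ (1 + δ) * ‖x‖ := fun x => rec_le hc (by positivity)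
    (fun j hj => by
      rw [s1 j hj]
      exact (b j).le_of_opNorm_le (b1 j) x) (s3 x)
  let S : B →ₗ[ℝ] ℕ →ᵇ ℝ :=
    { toFun := fun x => .ofNormedAddCommGroupDiscrete (fun j => s j x) _ (s4 x)
      map_add' := fun x y => BoundedContinuousFunction.ext fun j => map_add (s j) x y
      map_smul' := fun r x => BoundedContinuousFunction.ext fun j => map_smul (s j) r x }
  refine ⟨_, S, s3, fun a => BoundedContinuousFunction.ext fun j => ?_, fun x =>
    ⟨?_, (BoundedContinuousFunction.norm_le (by positivity)).2 (s4 x)⟩⟩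
  · show s j a = T a j
    induction j using Nat.strong_induction_on with
    | _ j ih =>
      rcases lt_or_ge j (N + φ (Q.sup id) + 1) with hj | hj
      · rw [s1 j hj]
        exact b2 j a
      · rw [s3 a j hj, hT a j (by omega)]
        exact Finset.sum_congr rfl fun i hi => by rw [ih i (Finset.mem_range.1 hi)]
  · obtain ⟨ψ, p1, p2⟩ := exists_dual_vector'' ℝ x
    obtain ⟨k, k1, k2⟩ := mem_iUnion₂.1 (hQ (mem_closedBall_zero_iff.2 p1))
    have k3 : φ k ≤ φ (Q.sup id) := f1.monotone (Finset.le_sup (f := id) k1)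
    have k4 : s (φ k) x ≤ ‖S x‖ := (le_abs_self _).trans ((S x).norm_coe_le_norm (φ k))
    have k5 := (neg_le_abs _).trans
      ((b (φ k) - (1 - δ) • β k).le_of_opNorm_le (b3 _ k rfl) x)
    have k6 := (le_abs_self _).trans ((ψ - β k).le_of_opNorm_le (mem_ball_iff_norm.1 k2).le x)
    rw [s1 _ (by omega)] at k4
    have p3 : ψ x = ‖x‖ := p2
    rw [_root_.sub_apply] at k5 k6
    rw [_root_.smul_apply, smul_eq_mul] at k5
    have k7 := mul_le_mul_of_nonneg_left k6 d2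
    have := mul_nonneg (mul_nonneg d0.le d0.le) (norm_nonneg x)
    rw [p3] at k7
    nlinarith

end

theorem gurEx : GurExStmt := by
  obtain ⟨c, hc⟩ := exists_mat
  let G := (⨆ N, FF c N).topologicalClosure
  have hG : ∀ N, FF c N ≤ G := fun N => (le_iSup (FF c) N).trans (Submodule.le_topologicalClosure _)
  have eG : (G : Set (ℕ →ᵇ ℝ)) = closure (⋃ N, (FF c N : Set (ℕ →ᵇ ℝ))) := by
    rw [← Submodule.coe_iSup_of_directed _ FF_mono.directed_le]
    rfl
  refine ⟨G, inferInstance, inferInstance,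
    (Submodule.isClosed_topologicalClosure _).completeSpace_coe, ?_, fun B _ _ _ A T ε hε => ?_⟩
  · refine IsSeparable.separableSpace (s := (G : Set (ℕ →ᵇ ℝ))) ?_
    rw [eG]
    refine (IsSeparable.iUnion fun N => ?_).closure
    have := FF_fin hc N
    have := FiniteDimensional.proper_real (FF c N)
    have : SeparableSpace (FF c N : Set (ℕ →ᵇ ℝ)) := (inferInstance : SeparableSpace (FF c N))
    exact IsSeparable.of_subtype _
  obtain ⟨p, hp⟩ := A.subtype.exists_leftInverse_of_injective A.ker_subtype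
  have p1 : ∀ a : A, p a = a := fun a => LinearMap.congr_fun hp a
  obtain ⟨κ, k0, hκ⟩ : ∃ κ ≥ (0 : ℝ), ∀ b, ‖p b‖ ≤ κ * ‖b‖ :=
    ⟨_, norm_nonneg _, (LinearMap.toContinuousLinearMap p).le_opNorm⟩
  obtain ⟨δ, d0, d1, d2⟩ : ∃ δ > (0 : ℝ), δ ≤ 1 ∧ (4 + κ) * δ ≤ ε :=
    ⟨min 1 (ε / (4 + κ)), by positivity, min_le_left _ _,
      (le_div_iff₀' (by positivity)).1 (min_le_right _ _)⟩
  let v := Module.finBasis ℝ A
  obtain ⟨C, C0, hC⟩ := v.exists_opNorm_le (F := ℕ →ᵇ ℝ)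
  have : ∀ i, ∃ N, ∃ f ∈ FF c N, ‖(T (v i)).1 - f‖ ≤ δ / C := fun i => by
    have m : (T (v i)).1 ∈ (G : Set (ℕ →ᵇ ℝ)) := (T (v i)).2
    rw [eG] at m
    obtain ⟨f, h1, h2⟩ := Metric.mem_closure_iff.1 m (δ / C) (by positivity)
    obtain ⟨N, hN⟩ := mem_iUnion.1 h1
    exact ⟨N, f, hN, (dist_eq_norm _ _).ge.trans h2.le⟩
  choose N f f1 f2 using this
  let T' : A →ₗ[ℝ] ℕ →ᵇ ℝ := v.constr ℝ f
  let D : A →ₗ[ℝ] ℕ →ᵇ ℝ := G.subtype.comp T.toLinearMap - T'
  have hD : ∀ a, ‖D a‖ ≤ δ * ‖a‖ := fun a => by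
    have := hC (u := LinearMap.toContinuousLinearMap D) (by positivity : 0 ≤ δ / C) fun i => by
      show ‖(T (v i)).1 - T' (v i)‖ ≤ _
      rw [Module.Basis.constr_basis]
      exact f2 i
    rw [mul_div_cancel₀ _ C0.ne'] at this
    exact (LinearMap.toContinuousLinearMap D).le_of_opNorm_le this a
  have hT : ∀ a, T' a ∈ FF c (Finset.univ.sup N) := fun a => by
    rw [Module.Basis.constr_apply_fintype]
    exact Submodule.sum_mem _ fun i _ => Submodule.smul_mem _ _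
      (FF_mono (Finset.le_sup (Finset.mem_univ i)) (f1 i))
  obtain ⟨N', S, s1, s2, s3⟩ := ext_FF hc A T' hT d0 d1 fun a => by
    have h1 := abs_le.1 ((abs_norm_sub_norm_le (T a).1 (T' a)).trans (hD a))
    have h2 : ‖(T a).1‖ = ‖a‖ := T.norm_map a
    constructor <;> linarith [h1.1, h1.2]
  refine ⟨(S + D.comp p).codRestrict G fun b => G.add_mem (hG _ (s1 b))
    (G.sub_mem (T (p b)).2 (hG _ (hT _))), fun a => Subtype.ext ?_, fun b => ?_⟩
  · show S a + ((T (p a)).1 - T' (p a)) = _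
    rw [p1, s2, add_sub_cancel]
  · have h1 := (hD (p b)).trans (mul_le_mul_of_nonneg_left (hκ b) d0.le)
    have h2 := abs_le.1 ((abs_norm_sub_norm_le (S b + D (p b)) (S b)).trans
      ((congrArg norm (add_sub_cancel_left _ _)).trans_le h1))
    have h3 := mul_le_mul_of_nonneg_right d2 (norm_nonneg b)
    have h4 := mul_nonneg d0.le (norm_nonneg b)
    show _ ≤ ‖S b + D (p b)‖ ∧ ‖S b + D (p b)‖ ≤ _
    constructor <;> linarith [h2.1, h2.2, (s3 b).1, (s3 b).2]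

end N124
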