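import Vale.Agent.N124.MO

/-!
P124, second hand-in: `L₁`-preduals have the approximate finite ball property.
-/

open Finset MeasureTheory

namespace N124

/-- transport plan between the positive and the negative parts of a vector of sum zero -/
noncomputable def trp {ι : Type} [Fintype ι] (a : ι → ℝ) (i j : ι) : ℝ :=
  max (a i) 0 * max (-a j) 0 / ∑ k, max (a k) 0

theorem trp_nonneg {ι : Type} [Fintype ι] (a : ι → ℝ) (i j : ι) : 0 ≤ trp a i j :=
  div_nonneg (mul_nonneg (le_max_right _ _) (le_max_right _ _))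
    (sum_nonneg fun _ _ => le_max_right _ _)

theorem sum_neg_part {ι : Type} [Fintype ι] {a : ι → ℝ} (h : ∑ k, a k = 0) :
    ∑ k, max (-a k) 0 = ∑ k, max (a k) 0 := by
  have : ∀ k, max (-a k) 0 = max (a k) 0 - a k := fun k => by
    rcases le_total (a k) 0 with h | h
    · rw [max_eq_left (by linarith), max_eq_right h]; ring
    · rw [max_eq_right (by linarith), max_eq_left h]; ring
  simp only [this, sum_sub_distrib, h, sub_zero]

theorem trp_row {ι : Type} [Fintype ι] {a : ι → ℝ} (h : ∑ k, a k = 0) (i : ι) :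
    ∑ j, trp a i j = max (a i) 0 := by
  unfold trp
  rw [← sum_div, ← mul_sum, sum_neg_part h]
  by_cases hS : ∑ k, max (a k) 0 = 0
  · rw [hS, div_zero]
    exact ((sum_eq_zero_iff_of_nonneg fun k _ => le_max_right (a k) 0).1 hS i (mem_univ i)).symm
  · rw [mul_div_assoc, div_self hS, mul_one]

theorem trp_col {ι : Type} [Fintype ι] {a : ι → ℝ} (h : ∑ k, a k = 0) (j : ι) :
    ∑ i, trp a i j = max (-a j) 0 := by
  unfold trp
  rw [← sum_div, ← sum_mul]
  by_cases hS : ∑ k, max (a k) 0 = 0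
  · rw [hS, div_zero]
    rw [← sum_neg_part h] at hS
    exact ((sum_eq_zero_iff_of_nonneg fun k _ => le_max_right (-a k) 0).1 hS j (mem_univ j)).symm
  · rw [mul_comm, mul_div_assoc, div_self hS, mul_one]

/-- splitting of integrable functions of sum zero -/
theorem l1_split {Ω : Type} [MeasurableSpace Ω] {μ : Measure Ω} {ι : Type} [Fintype ι]
    (f : ι → Lp ℝ 1 μ) (hf : ∑ i, f i = 0) :
    ∃ h : ι → ι → Lp ℝ 1 μ, (∀ i, f i = ∑ j, h i j - ∑ j, h j i) ∧
      ∀ i, ∑ j, ‖h i j‖ + ∑ j, ‖h j i‖ = ‖f i‖ := by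
  have hsum : ∀ᵐ ω ∂μ, ∑ k, f k ω = 0 := by
    have h1 := Lp.coeFn_finsetSum (E := ℝ) (p := 1) (μ := μ) univ f
    rw [hf] at h1
    filter_upwards [h1, Lp.coeFn_zero ℝ 1 μ] with ω h2 h3
    rw [h3] at h2
    simpa using h2.symm
  have hm : ∀ k, AEStronglyMeasurable (f k) μ := fun k => Lp.aestronglyMeasurable _
  have hi : ∀ k, Integrable (f k) μ := fun k => L1.integrable_coeFn _
  let g : ι → ι → Ω → ℝ := fun i j ω => trp (fun k => f k ω) i j
  have gm : ∀ i j, AEStronglyMeasurable (g i j) μ := by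
    intro i j
    have a1 : ∀ k, AEMeasurable (fun ω => max (f k ω) 0) μ := fun k =>
      (hm k).aemeasurable.max aemeasurable_const
    have a2 : AEMeasurable (fun ω => max (-f j ω) 0) μ :=
      (hm j).aemeasurable.neg.max aemeasurable_const
    exact (((a1 i).mul a2).div (Finset.aemeasurable_fun_sum _ fun k _ => a1 k)).aestronglyMeasurable
  have gi : ∀ i j, Integrable (g i j) μ := by
    intro i j
    refine (hi i).norm.mono' (gm i j) ?_
    filter_upwards [hsum] with ω hω
    rw [Real.norm_of_nonneg (trp_nonneg _ _ _)]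
    have h1 := single_le_sum (f := fun j => trp (fun k => f k ω) i j)
      (fun j _ => trp_nonneg _ _ _) (mem_univ j)
    rw [trp_row hω] at h1
    exact h1.trans (max_le (le_abs_self _) (abs_nonneg _))
  refine ⟨fun i j => (gi i j).toL1 _, fun i => ?_, fun i => ?_⟩
  · apply Lp.ext
    have h1 := Lp.coeFn_finsetSum (E := ℝ) (p := 1) (μ := μ) univ fun j => (gi i j).toL1 _
    have h2 := Lp.coeFn_finsetSum (E := ℝ) (p := 1) (μ := μ) univ fun j => (gi j i).toL1 _
    have h3 : ∀ᵐ ω ∂μ, ∀ j, (gi i j).toL1 _ ω = g i j ω :=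
      ae_all_iff.2 fun j => (gi i j).coeFn_toL1
    have h4 : ∀ᵐ ω ∂μ, ∀ j, (gi j i).toL1 _ ω = g j i ω :=
      ae_all_iff.2 fun j => (gi j i).coeFn_toL1
    filter_upwards [h1, h2, h3, h4, hsum, Lp.coeFn_sub (∑ j, (gi i j).toL1 _)
      (∑ j, (gi j i).toL1 _)] with ω e1 e2 e3 e4 e5 e6
    rw [e6, Pi.sub_apply, e1, e2]
    simp only [Finset.sum_apply, e3, e4, g, trp_row e5, trp_col e5]
    rcases le_total (f i ω) 0 with h | h
    · rw [max_eq_right h, max_eq_left (by linarith)]; ring
    · rw [max_eq_left h, max_eq_right (by linarith)]; ring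
  · have n1 : ∀ i j, ‖(gi i j).toL1 _‖ = ∫ ω, g i j ω ∂μ := fun i j => by
      rw [Integrable.norm_toL1_eq_lintegral_enorm, ← integral_norm_eq_lintegral_enorm (gm i j)]
      exact integral_congr_ae (ae_of_all _ fun ω => Real.norm_of_nonneg (trp_nonneg _ _ _))
    simp only [n1]
    rw [← integral_finsetSum _ fun j _ => gi i j, ← integral_finsetSum _ fun j _ => gi j i,
      ← integral_add (integrable_finsetSum _ fun j _ => gi i j)
        (integrable_finsetSum _ fun j _ => gi j i), L1.norm_eq_integral_norm]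
    refine integral_congr_ae ?_
    filter_upwards [hsum] with ω e5
    simp only [g, trp_row e5, trp_col e5, Real.norm_eq_abs]
    rcases le_total (f i ω) 0 with h | h
    · rw [max_eq_right h, max_eq_left (by linarith), abs_of_nonpos h]; ring
    · rw [max_eq_left h, max_eq_right (by linarith), abs_of_nonneg h]; ring

theorem l1 : L1Stmt := by
  intro X _ _ ⟨Ω, _, μ, ⟨U⟩⟩ ι _ x r hr ε hε
  by_contra hcon
  push Not at hcon
  rcases isEmpty_or_nonempty ι with hι | hι
  · obtain ⟨i, -⟩ := hcon 0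
    exact hι.elim i
  obtain ⟨φ, lam, -, -, hφ, hs, hα⟩ := minimax (fun _ : ι => (1 : ℝ)) (fun _ => zero_le_one) x
    (fun _ => 0) (fun i => -r i) ε fun z => by
      obtain ⟨i, hi⟩ := hcon z
      exact ⟨i, by simp only [one_mul, zero_apply]; linarith⟩
  simp only [smul_zero, sum_const_zero] at hs
  have r0 : ∀ i, 0 ≤ r i := fun i => by
    have := hr i i
    rw [sub_self, norm_zero] at this
    linarith
  obtain ⟨h, h1, h2⟩ := l1_split (fun i => U (φ i)) (by rw [← map_sum, hs, map_zero])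
  let η : ι → ι → StrongDual ℝ X := fun i j => U.symm (h i j)
  have e1 : ∀ i, φ i = ∑ j, η i j - ∑ j, η j i := fun i => by
    apply U.injective
    simp only [η, map_sub, map_sum, LinearIsometryEquiv.apply_symm_apply]
    exact h1 i
  have e2 : ∀ i, ∑ j, ‖η i j‖ + ∑ j, ‖η j i‖ = ‖φ i‖ := fun i => by
    simp only [η, LinearIsometryEquiv.norm_map]
    rw [h2 i, LinearIsometryEquiv.norm_map]
  have e3 : ∑ i, φ i (x i) = ∑ i, ∑ j, η i j (x i - x j) := by
    have : ∀ i, φ i (x i) = ∑ j, η i j (x i) - ∑ j, η j i (x i) := fun i => by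
      rw [e1 i]; simp
    simp only [this, map_sub, sum_sub_distrib]
    congr 1
    exact sum_comm
  have e4 : -∑ i, ∑ j, η i j (x i - x j) ≤ ∑ i, ∑ j, ‖η i j‖ * (r i + r j) := by
    rw [← sum_neg_distrib]
    refine sum_le_sum fun i _ => ?_
    rw [← sum_neg_distrib]
    refine sum_le_sum fun j _ => ?_
    have a1 := (η i j).le_opNorm (x i - x j)
    have a2 := mul_le_mul_of_nonneg_left (hr i j) (norm_nonneg (η i j))
    have a3 := neg_abs_le (η i j (x i - x j))
    rw [Real.norm_eq_abs] at a1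
    linarith
  have e5 : ∑ i, ∑ j, ‖η i j‖ * (r i + r j) = ∑ i, ‖φ i‖ * r i := by
    simp only [← e2, mul_add, add_mul, sum_add_distrib, sum_mul]
    congr 1
    exact sum_comm
  have e6 : ∑ i, ‖φ i‖ * r i ≤ ∑ i, lam i * r i :=
    sum_le_sum fun i _ => mul_le_mul_of_nonneg_right (by simpa using hφ i) (r0 i)
  simp only [mul_neg, sum_sub_distrib, sum_neg_distrib] at hα
  linarith

end N124
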