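import Vale.Agent.N124.Plan

/-!
P124, second hand-in: the Mazur-Orlicz form of the Hahn-Banach theorem and a minimax lemma for
finitely many balls and half spaces.
-/

open Finset

namespace N124

/-- Mazur-Orlicz -/
theorem mo {V : Type*} [AddCommGroup V] [Module ℝ V] (p : V → ℝ)
    (hadd : ∀ x y, p (x + y) ≤ p x + p y) (hsmul : ∀ c : ℝ, 0 < c → ∀ x, p (c • x) = c * p x)
    (C : Set V) (hC : Convex ℝ C) (hne : C.Nonempty) (α : ℝ) (hα : ∀ x ∈ C, α ≤ p x) :
    ∃ Φ : V →ₗ[ℝ] ℝ, (∀ x, Φ x ≤ p x) ∧ ∀ x ∈ C, α ≤ Φ x := by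
  have p0 : p 0 = 0 := by
    have := hsmul 2 two_pos 0
    rw [smul_zero] at this
    linarith
  obtain ⟨c₀, hc₀⟩ := hne
  let D : V → Set ℝ := fun y => {a | ∃ t : ℝ, 0 ≤ t ∧ ∃ c ∈ C, a = p (y + t • c) - t * α}
  have hD0 : ∀ y, p y ∈ D y := fun y => ⟨0, le_rfl, c₀, hc₀, by simp⟩
  have hlow : ∀ y, ∀ a ∈ D y, -p (-y) ≤ a := by
    rintro y a ⟨t, ht, c, hc, rfl⟩
    have h1 : p (t • c) ≤ p (y + t • c) + p (-y) := by
      have := hadd (y + t • c) (-y)
      rwa [show y + t • c + -y = t • c by abel] at this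
    have h2 : t * α ≤ p (t • c) := by
      rcases ht.eq_or_lt with h | h
      · rw [← h]; simp [p0]
      · rw [hsmul t h]; exact mul_le_mul_of_nonneg_left (hα c hc) ht
    linarith
  have hbd : ∀ y, BddBelow (D y) := fun y => ⟨_, hlow y⟩
  let q : V → ℝ := fun y => sInf (D y)
  have qle : ∀ y, ∀ a ∈ D y, q y ≤ a := fun y a ha => csInf_le (hbd y) ha
  have leq : ∀ y b, (∀ a ∈ D y, b ≤ a) → b ≤ q y := fun y b h => le_csInf ⟨_, hD0 y⟩ h
  have qs : ∀ c : ℝ, 0 < c → ∀ y, q (c • y) ≤ c * q y := by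
    intro s hs y
    have : q (s • y) / s ≤ q y := by
      refine leq y _ ?_
      rintro a ⟨t, ht, c, hc, rfl⟩
      rw [div_le_iff₀ hs]
      refine (qle _ _ ⟨s * t, by positivity, c, hc, rfl⟩).trans (le_of_eq ?_)
      rw [mul_smul, ← smul_add, hsmul s hs]
      ring
    rw [div_le_iff₀ hs] at this
    linarith
  have qhom : ∀ c : ℝ, 0 < c → ∀ y, q (c • y) = c * q y := by
    intro s hs y
    refine le_antisymm (qs s hs y) ?_
    have := qs s⁻¹ (inv_pos.2 hs) (s • y)
    rw [smul_smul, inv_mul_cancel₀ hs.ne', one_smul] at this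
    calc s * q y ≤ s * (s⁻¹ * q (s • y)) := mul_le_mul_of_nonneg_left this hs.le
      _ = q (s • y) := by field_simp
  have qadd : ∀ x y, q (x + y) ≤ q x + q y := by
    intro x y
    have : q (x + y) - q y ≤ q x := by
      refine leq x _ ?_
      rintro a ⟨t, ht, c, hc, rfl⟩
      have : q (x + y) - (p (x + t • c) - t * α) ≤ q y := by
        refine leq y _ ?_
        rintro a ⟨t', ht', c', hc', rfl⟩
        have h1 := hadd (x + t • c) (y + t' • c')
        rcases (add_nonneg ht ht').eq_or_lt with h | h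
        · have h2 : t = 0 := by linarith
          have h3 : t' = 0 := by linarith
          subst h2 h3
          have := qle _ _ (hD0 (x + y))
          simp only [zero_smul, add_zero, zero_mul, sub_zero] at h1 ⊢
          linarith
        · have hm : (t / (t + t')) • c + (t' / (t + t')) • c' ∈ C :=
            hC hc hc' (by positivity) (by positivity) (by field_simp)
          have h4 := qle (x + y) _ ⟨t + t', h.le, _, hm, rfl⟩
          have h5 : x + y + (t + t') • ((t / (t + t')) • c + (t' / (t + t')) • c')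
              = x + t • c + (y + t' • c') := by
            rw [smul_add, smul_smul, smul_smul, mul_div_cancel₀ _ h.ne', mul_div_cancel₀ _ h.ne']
            abel
          rw [h5] at h4
          linarith
      linarith
    linarith
  obtain ⟨g, -, hg⟩ := exists_extension_of_le_sublinear
    (⟨⊥, 0⟩ : V →ₗ.[ℝ] ℝ) q qhom qadd (by
      rintro ⟨x, hx⟩
      have hx0 : x = 0 := by simpa using hx
      subst hx0
      have := leq 0 0 (fun a ha => by have := hlow 0 a ha; rw [neg_zero, p0] at this; linarith)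
      simpa using this)
  refine ⟨g, fun x => (hg x).trans (qle _ _ (hD0 x)), fun c hc => ?_⟩
  have h1 := (hg (-c)).trans (qle _ _ ⟨1, zero_le_one, c, hc, rfl⟩)
  rw [one_smul, neg_add_cancel, p0, map_neg] at h1
  linarith

/-- minimax for finitely many functions `w i * ‖z - x i‖ - ψ i z + a i` -/
theorem minimax {X : Type*} [NormedAddCommGroup X] [NormedSpace ℝ X] {ι : Type*} [Fintype ι]
    [Nonempty ι] (w : ι → ℝ) (hw : ∀ i, 0 ≤ w i) (x : ι → X) (ψ : ι → StrongDual ℝ X)
    (a : ι → ℝ) (α : ℝ) (h : ∀ z, ∃ i, α ≤ w i * ‖z - x i‖ - ψ i z + a i) :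
    ∃ (φ : ι → StrongDual ℝ X) (lam : ι → ℝ), (∀ i, 0 ≤ lam i) ∧ ∑ i, lam i = 1 ∧
      (∀ i, ‖φ i‖ ≤ lam i * w i) ∧ ∑ i, φ i = ∑ i, lam i • ψ i ∧
      α ≤ ∑ i, (lam i * a i - φ i (x i)) := by
  classical
  let p : (ι → X × ℝ) → ℝ := fun v => univ.sup' univ_nonempty fun i => w i * ‖(v i).1‖ + (v i).2
  have lep : ∀ v i, w i * ‖(v i).1‖ + (v i).2 ≤ p v := fun v i =>
    le_sup' (fun i => w i * ‖(v i).1‖ + (v i).2) (mem_univ i)
  have ple : ∀ v b, (∀ i, w i * ‖(v i).1‖ + (v i).2 ≤ b) → p v ≤ b := fun v b hb =>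
    sup'_le _ _ fun i _ => hb i
  have hadd : ∀ u v, p (u + v) ≤ p u + p v := by
    intro u v
    refine ple _ _ fun i => ?_
    have h1 := lep u i
    have h2 := lep v i
    have h3 := mul_le_mul_of_nonneg_left (norm_add_le (u i).1 (v i).1) (hw i)
    simp only [Pi.add_apply, Prod.fst_add, Prod.snd_add]
    linarith
  have hs : ∀ c : ℝ, 0 < c → ∀ v, p (c • v) ≤ c * p v := by
    intro c hc v
    refine ple _ _ fun i => ?_
    have h1 := mul_le_mul_of_nonneg_left (lep v i) hc.le
    simp only [Pi.smul_apply, Prod.smul_fst, Prod.smul_snd, norm_smul, Real.norm_of_nonneg hc.le,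
      smul_eq_mul]
    linarith
  have hsmul : ∀ c : ℝ, 0 < c → ∀ v, p (c • v) = c * p v := by
    intro s hs' y
    refine le_antisymm (hs s hs' y) ?_
    have := hs s⁻¹ (inv_pos.2 hs') (s • y)
    rw [smul_smul, inv_mul_cancel₀ hs'.ne', one_smul] at this
    calc s * p y ≤ s * (s⁻¹ * p (s • y)) := mul_le_mul_of_nonneg_left this hs'.le
      _ = p (s • y) := by field_simp
  let cc : X → (ι → X × ℝ) := fun z i => (z - x i, a i - ψ i z)
  have hconv : Convex ℝ (Set.range cc) := by
    rintro _ ⟨z, rfl⟩ _ ⟨z', rfl⟩ s t _ _ hst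
    refine ⟨s • z + t • z', ?_⟩
    funext i
    have ht : t = 1 - s := by linarith
    subst ht
    refine Prod.ext ?_ ?_
    · simp only [cc, Pi.add_apply, Pi.smul_apply, Prod.fst_add, Prod.smul_fst]
      module
    · simp only [cc, Pi.add_apply, Pi.smul_apply, Prod.snd_add, Prod.smul_snd, map_add, map_smul,
        smul_eq_mul]
      ring
  obtain ⟨Φ, hΦ, hΦC⟩ := mo p hadd hsmul _ hconv ⟨_, 0, rfl⟩ α (by
    rintro _ ⟨z, rfl⟩
    obtain ⟨i, hi⟩ := h z
    have := lep (cc z) i
    simp only [cc] at this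
    linarith)
  let lam : ι → ℝ := fun i => Φ (Pi.single i (0, 1))
  let φl : ι → X →ₗ[ℝ] ℝ := fun i =>
    Φ.comp ((LinearMap.single ℝ (fun _ : ι => X × ℝ) i).comp (LinearMap.inl ℝ X ℝ))
  have hφl : ∀ i y, φl i y = Φ (Pi.single i (y, 0)) := fun i y => rfl
  have hsing : ∀ i (y : X) (s : ℝ), Φ (Pi.single i (y, s)) = φl i y + lam i * s := by
    intro i y s
    have : (Pi.single i (y, s) : ι → X × ℝ)
        = Pi.single i (y, 0) + s • (Pi.single i (0, 1) : ι → X × ℝ) := by
      funext j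
      by_cases hj : j = i
      · subst hj; simp
      · simp [Pi.single_eq_of_ne hj]
    rw [this, map_add, map_smul, hφl, smul_eq_mul, mul_comm]
  have hdec : ∀ v, Φ v = ∑ i, (φl i (v i).1 + lam i * (v i).2) := by
    intro v
    conv_lhs => rw [← univ_sum_single v, map_sum]
    exact sum_congr rfl fun i _ => hsing i (v i).1 (v i).2
  have hneg : ∀ i (y : X) (s : ℝ), w i * ‖y‖ + s ≤ 0 → φl i y + lam i * s ≤ 0 := by
    intro i y s hys
    rw [← hsing]
    refine (hΦ _).trans (ple _ _ fun j => ?_)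
    by_cases hj : j = i
    · subst hj; simpa using hys
    · simp [Pi.single_eq_of_ne hj]
  have hlam : ∀ i, 0 ≤ lam i := fun i => by
    have := hneg i 0 (-1) (by simp)
    simp only [map_zero, zero_add, mul_neg, mul_one] at this
    linarith
  have hbound : ∀ i y, ‖φl i y‖ ≤ lam i * w i * ‖y‖ := by
    intro i y
    have h1 := hneg i y (-(w i * ‖y‖)) (by simp)
    have h2 := hneg i (-y) (-(w i * ‖y‖)) (by simp)
    rw [map_neg] at h2
    rw [Real.norm_eq_abs, abs_le]
    constructor <;> nlinarith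
  have hone : ∑ i, lam i = 1 := by
    have h1 := (hΦ fun _ => (0, 1)).trans (ple _ 1 fun i => by simp)
    have h2 := (hΦ fun _ => (0, -1)).trans (ple _ (-1) fun i => by simp)
    rw [hdec] at h1 h2
    simp only [map_zero, zero_add, mul_one, mul_neg, sum_neg_distrib] at h1 h2
    linarith
  let φ : ι → StrongDual ℝ X := fun i => (φl i).mkContinuous _ (hbound i)
  have hφ : ∀ i y, φ i y = φl i y := fun i y => rfl
  have hC : ∀ z, α ≤ (∑ i, φ i - ∑ i, lam i • ψ i) z + ∑ i, (lam i * a i - φ i (x i)) := by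
    intro z
    have h1 := hΦC _ ⟨z, rfl⟩
    rw [hdec] at h1
    refine h1.trans (le_of_eq ?_)
    simp only [cc, sub_apply, _root_.sum_apply, smul_apply, smul_eq_mul, hφ, map_sub]
    rw [← sum_sub_distrib, ← sum_add_distrib]
    exact sum_congr rfl fun i _ => by ring
  have hzero : ∑ i, φ i - ∑ i, lam i • ψ i = 0 := by
    generalize ∑ i, φ i - ∑ i, lam i • ψ i = L at hC
    generalize ∑ i, (lam i * a i - φ i (x i)) = b at hC
    ext z
    by_contra hz
    have hz' : L z ≠ 0 := by simpa using hz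
    have := hC (((α - b - 1) / L z) • z)
    rw [map_smul, smul_eq_mul, div_mul_cancel₀ _ hz'] at this
    linarith
  refine ⟨φ, lam, hlam, hone, fun i => LinearMap.mkContinuous_norm_le _
    (mul_nonneg (hlam i) (hw i)) _, sub_eq_zero.1 hzero, ?_⟩
  have := hC 0
  rwa [map_zero, zero_add] at this

end N124
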