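import Vale.Agent.N124.Plan

/-!
P124, second hand-in: Milutin's lemma.
-/

open MeasureTheory TopologicalSpace Filter Topology unitInterval

namespace N124

section

variable {K : Type} [TopologicalSpace K]

/-- the code `ω` is compatible with the point `x` -/
def Cmp (h : ℕ → C(K, ℝ)) (ω : Can) (x : K) : Prop :=
  ∀ k, (ω k = true → 0 ≤ h k x) ∧ (ω k = false → h k x ≤ 1)

theorem isClosed_cmp (h : ℕ → C(K, ℝ)) : IsClosed {p : Can × K | Cmp h p.1 p.2} := by
  simp only [Cmp, Set.ofPred_forall, Set.ofPred_and]
  refine isClosed_iInter fun k => IsClosed.inter ?_ ?_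
  · have h2 : IsClosed ({p : Can × K | p.1 k = false} ∪ {p : Can × K | 0 ≤ h k p.2}) :=
      (isClosed_eq (by fun_prop) continuous_const).union
        (isClosed_le continuous_const (by fun_prop))
    convert h2 using 1
    ext p
    cases hp : p.1 k <;> simp [hp]
  · have h2 : IsClosed ({p : Can × K | p.1 k = true} ∪ {p : Can × K | h k p.2 ≤ 1}) :=
      (isClosed_eq (by fun_prop) continuous_const).union
        (isClosed_le (by fun_prop) continuous_const)
    convert h2 using 1
    ext p
    cases hp : p.1 k <;> simp [hp]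

theorem Cmp.unique [CompactSpace K] [T2Space K] {h : ℕ → C(K, ℝ)} (hd : DenseRange h) {ω : Can}
    {x y : K} (hx : Cmp h ω x) (hy : Cmp h ω y) : x = y := by
  by_contra hne
  obtain ⟨f, f0, f1, -⟩ := exists_continuous_zero_one_of_isClosed (isClosed_singleton (x := x))
    (isClosed_singleton (x := y)) (Set.disjoint_singleton.2 hne)
  obtain ⟨k, hk⟩ := hd.exists_dist_lt ((3 : ℝ) • f - 1) (ε := 1 / 2) (by norm_num)
  have a1 := (ContinuousMap.dist_apply_le_dist (f := (3 : ℝ) • f - 1) (g := h k) x).trans_lt hk
  have a2 := (ContinuousMap.dist_apply_le_dist (f := (3 : ℝ) • f - 1) (g := h k) y).trans_lt hk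
  have b1 : f x = 0 := f0 rfl
  have b2 : f y = 1 := f1 rfl
  simp only [ContinuousMap.sub_apply, ContinuousMap.smul_apply, ContinuousMap.one_apply, b1, b2,
    smul_eq_mul, Real.dist_eq, abs_lt] at a1 a2
  cases hω : ω k
  · have := (hy k).2 hω
    linarith [a2.1, a2.2]
  · have := (hx k).1 hω
    linarith [a1.1, a1.2]

/-- the random code of the point `x` -/
noncomputable def code (h : ℕ → C(K, ℝ)) (x : K) (u : ℕ → I) : Can :=
  fun k => decide ((u k : ℝ) < h k x)

theorem cmp_code (h : ℕ → C(K, ℝ)) (x : K) (u : ℕ → I) : Cmp h (code h x u) x := by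
  intro k
  simp only [code, decide_eq_true_eq, decide_eq_false_iff_not, not_lt]
  exact ⟨fun a => (u k).2.1.trans a.le, fun a => a.trans (u k).2.2⟩

theorem measurable_code (h : ℕ → C(K, ℝ)) (x : K) : Measurable (code h x) := by
  refine measurable_pi_lambda _ fun k => ?_
  refine measurable_to_bool ?_
  have : (fun u : ℕ → I => code h x u k) ⁻¹' {true} = {u | (u k : ℝ) < h k x} := by
    ext u
    simp [code]
  rw [this]
  exact measurableSet_lt (by fun_prop) measurable_const

theorem continuousAt_code (h : ℕ → C(K, ℝ)) (x : K) (u : ℕ → I)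
    (hu : ∀ k, (u k : ℝ) ≠ h k x) : ContinuousAt (fun y => code h y u) x := by
  refine continuousAt_pi.2 fun k => ?_
  refine (continuousAt_const (y := code h x u k)).congr ?_
  rcases lt_or_gt_of_ne (hu k) with a | a
  · filter_upwards [(h k).continuous.continuousAt.eventually (lt_mem_nhds a)] with y hy
    simp [code, a, hy]
  · filter_upwards [(h k).continuous.continuousAt.eventually (gt_mem_nhds a)] with y hy
    simp [code, a.not_gt, hy.not_gt]

/-- the uniform measure on the cube -/
noncomputable def cube : Measure (ℕ → I) := Measure.infinitePi fun _ => volume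

instance cube_prob : IsProbabilityMeasure cube := by
  unfold cube
  infer_instance

theorem ae_ne_cube (c : ℕ → ℝ) : ∀ᵐ u ∂cube, ∀ k, (u k : ℝ) ≠ c k := by
  refine ae_all_iff.2 fun k => ?_
  have h1 : ∀ᵐ t : I, (t : ℝ) ≠ c k := by
    have : {t : I | ¬ (t : ℝ) ≠ c k}.Subsingleton := fun a ha b hb => by
      simp only [Set.mem_ofPred_eq, not_not] at ha hb
      exact Subtype.ext (ha.trans hb.symm)
    exact this.measure_zero _
  exact (measurePreserving_eval_infinitePi (fun _ : ℕ => (volume : Measure I))
    k).quasiMeasurePreserving.ae h1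

theorem integrable_code (h : ℕ → C(K, ℝ)) (g : C(Can, ℝ)) (x : K) :
    Integrable (fun u => g (code h x u)) cube :=
  Integrable.of_bound (g.continuous.measurable.comp (measurable_code h x)).aestronglyMeasurable ‖g‖
    (ae_of_all _ fun _ => g.norm_coe_le_norm _)

/-- the averaging operator -/
noncomputable def avg [CompactSpace K] [FirstCountableTopology K] (h : ℕ → C(K, ℝ)) :
    C(Can, ℝ) →L[ℝ] C(K, ℝ) :=
  LinearMap.mkContinuous
    { toFun := fun g => ⟨fun x => ∫ u, g (code h x u) ∂cube, continuous_iff_continuousAt.2 fun x =>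
        continuousAt_of_dominated (bound := fun _ => ‖g‖)
          (Eventually.of_forall fun y => (integrable_code h g y).aestronglyMeasurable)
          (Eventually.of_forall fun _ => ae_of_all _ fun _ => g.norm_coe_le_norm _)
          (integrable_const _)
          ((ae_ne_cube fun k => h k x).mono fun u hu =>
            g.continuous.continuousAt.comp (continuousAt_code h x u hu))⟩
      map_add' := fun f g => by
        ext x
        exact integral_add (integrable_code h f x) (integrable_code h g x)
      map_smul' := fun c f => by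
        ext x
        exact integral_const_mul c _ } 1 fun g => by
    rw [one_mul, ContinuousMap.norm_le _ (norm_nonneg _)]
    intro x
    have := norm_integral_le_of_norm_le_const (μ := cube) (f := fun u => g (code h x u)) (C := ‖g‖)
      (ae_of_all _ fun _ => g.norm_coe_le_norm _)
    simpa using this

theorem avg_apply [CompactSpace K] [FirstCountableTopology K] (h : ℕ → C(K, ℝ)) (g : C(Can, ℝ))
    (x : K) : avg h g x = ∫ u, g (code h x u) ∂cube := rfl

/-- a continuous decoding map -/
theorem exists_decode [CompactSpace K] [T2Space K] [Nonempty K] {h : ℕ → C(K, ℝ)}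
    (hd : DenseRange h) : ∃ q : C(Can, K), ∀ ω x, Cmp h ω x → q ω = x := by
  let R : Set (Can × K) := {p | Cmp h p.1 p.2}
  have : CompactSpace R := isCompact_iff_compactSpace.1 (isClosed_cmp h).isCompact
  let p : R → Can := fun a => a.1.1
  have pc : Continuous p := by fun_prop
  have pi : Function.Injective p := fun a b hab => by
    have h1 : a.1.1 = b.1.1 := hab
    have h2 : Cmp h a.1.1 b.1.2 := h1 ▸ b.2
    exact Subtype.ext (Prod.ext h1 (Cmp.unique hd a.2 h2))
  have pe := pc.isClosedEmbedding pi
  obtain ⟨x₀⟩ := ‹Nonempty K›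
  obtain ⟨r, r1, -, r2⟩ := PiNat.exists_retraction_subtype_of_isClosed (E := fun _ => Bool)
    pe.isClosed_range ⟨_, ⟨(_, x₀), cmp_code h x₀ 0⟩, rfl⟩
  let e := pe.isEmbedding.toHomeomorph
  refine ⟨⟨fun ω => (e.symm (r ω)).1.2, by fun_prop⟩, fun ω x hx => ?_⟩
  have h1 : r ω = e ⟨(ω, x), hx⟩ := r1 (e ⟨(ω, x), hx⟩)
  simp only [ContinuousMap.coe_mk, h1, Homeomorph.symm_apply_apply]

end

theorem mil : MilStmt := by
  intro K _ _ _ _ _
  obtain ⟨h, hd⟩ := exists_dense_seq C(K, ℝ)
  obtain ⟨q, hq⟩ := exists_decode hd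
  refine ⟨ContinuousMap.compCLM ℝ ℝ q, avg h, fun f => ?_⟩
  ext x
  rw [avg_apply]
  have : ∀ u, (ContinuousMap.compCLM ℝ ℝ q f) (code h x u) = f x := fun u => by
    show f (q (code h x u)) = f x
    rw [hq _ _ (cmp_code h x u)]
  simp only [this]
  simp

end N124
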