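import Vale.Agent.N124.Defs

/-!
P124, second hand-in: internal vocabulary and the statements of the blocks.
-/

open TopologicalSpace

namespace N124

/-- approximate finite ball property -/
def ABall (X : Type) [NormedAddCommGroup X] : Prop :=
  ∀ (ι : Type) [Fintype ι] (x : ι → X) (r : ι → ℝ), (∀ i j, ‖x i - x j‖ ≤ r i + r j) →
    ∀ ε : ℝ, 0 < ε → ∃ y, ∀ i, ‖y - x i‖ ≤ r i + ε

/-- the Cantor set -/
abbrev Can : Type := ℕ → Bool

/-- block L1: `L₁`-preduals have the approximate ball property -/
def L1Stmt : Prop := ∀ (X : Type) [NormedAddCommGroup X] [NormedSpace ℝ X],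
  IsL1Predual X → ABall X

/-- block Mil (Milutin's lemma) -/
def MilStmt : Prop := ∀ (K : Type) [TopologicalSpace K] [CompactSpace K] [T2Space K]
  [SecondCountableTopology K] [Nonempty K], Complemented C(K, ℝ) C(Can, ℝ)

/-- block GurB: Gurarii spaces have the approximate ball property -/
def GurBallStmt : Prop := ∀ (G : Type) [NormedAddCommGroup G] [NormedSpace ℝ G],
  IsGurarii G → ABall G

/-- block Woj (Wojtaszczyk) -/
def WojStmt : Prop := ∀ (G : Type) [NormedAddCommGroup G] [NormedSpace ℝ G] [CompleteSpace G]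
  [SeparableSpace G], IsGurarii G →
  ∀ (F : Type) [NormedAddCommGroup F] [NormedSpace ℝ F] [CompleteSpace F] [SeparableSpace F],
    ABall F → Complemented F G

/-- block GurEx: a separable Gurarii space exists -/
def GurExStmt : Prop := ∃ (G : Type) (_ : NormedAddCommGroup G) (_ : NormedSpace ℝ G),
  CompleteSpace G ∧ SeparableSpace G ∧ IsGurarii G

/-- block Tree (Lazar-Lindenstrauss) -/
def TreeStmt : Prop := ∀ (X : Type) [NormedAddCommGroup X] [NormedSpace ℝ X] [CompleteSpace X]
  [SeparableSpace X], ABall X → ¬ SeparableSpace (StrongDual ℝ X) → Complemented C(Can, ℝ) X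

end N124
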