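import Vale.Agent.N124.MO

/-!
P124, second hand-in: separability of the dual is preserved by Lipschitz isomorphisms.
-/

open Filter Topology TopologicalSpace

namespace N124

variable {X Y : Type} [NormedAddCommGroup X] [NormedSpace ℝ X] [NormedAddCommGroup Y]
  [NormedSpace ℝ Y]

/-- a sublinear function on a space with separable dual is almost affine on some ball -/
theorem sublin_flat [CompleteSpace X] (hs : SeparableSpace (StrongDual ℝ X)) (p : X → ℝ) (L : ℝ)
    (hadd : ∀ x y, p (x + y) ≤ p x + p y) (hsmul : ∀ c : ℝ, 0 < c → ∀ x, p (c • x) = c * p x)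
    (hL : ∀ x, p x ≤ L * ‖x‖) (ε : ℝ) (hε : 0 < ε) :
    ∃ (u : X) (ψ : StrongDual ℝ X) (r : ℝ), 0 < r ∧
      ∀ h, ‖h‖ ≤ r → p (u + h) ≤ p u + ψ h + ε * ‖h‖ := by
  have hsub : ∀ u, ∃ φ : StrongDual ℝ X, (∀ x, φ x ≤ p x) ∧ p u ≤ φ u := by
    intro u
    obtain ⟨Φ, h1, h2⟩ := mo p hadd hsmul {u} (convex_singleton u) ⟨u, rfl⟩ (p u) (by simp)
    refine ⟨Φ.mkContinuous L fun x => ?_, h1, h2 u rfl⟩
    have a1 := (h1 x).trans (hL x)
    have a2 := (h1 (-x)).trans (hL (-x))
    rw [map_neg, norm_neg] at a2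
    rw [Real.norm_eq_abs, abs_le]
    constructor <;> linarith
  choose φ hφ1 hφ2 using hsub
  have hp : Continuous p := by
    refine (LipschitzWith.of_dist_le' (K := L) fun x y => ?_).continuous
    have a1 := hadd y (x - y)
    have a2 := hadd x (y - x)
    rw [add_sub_cancel] at a1 a2
    have a3 := hL (x - y)
    have a4 := hL (y - x)
    rw [norm_sub_rev] at a4
    rw [Real.dist_eq, dist_eq_norm, abs_le]
    constructor <;> linarith
  let ψ : ℕ → StrongDual ℝ X := denseSeq _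
  let A : ℕ → Set X := fun n => {v | ∀ u, p v ≤ p u + ψ n (v - u) + ε * ‖v - u‖}
  have hA : ∀ n, IsClosed (A n) := fun n => by
    simp only [A, Set.ofPred_forall]
    exact isClosed_iInter fun u => isClosed_le hp (by fun_prop)
  have hcov : ⋃ n, A n = Set.univ := by
    refine Set.eq_univ_of_forall fun v => ?_
    obtain ⟨n, hn⟩ := (denseRange_denseSeq (StrongDual ℝ X)).exists_dist_lt (φ v) hε
    refine Set.mem_iUnion.2 ⟨n, fun u => ?_⟩
    have h1 : dist (φ v) (ψ n) = ‖φ v - ψ n‖ := dist_eq_norm (φ v) (ψ n)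
    have h2 := (le_abs_self _).trans ((φ v - ψ n).le_opNorm (v - u))
    have h3 : ‖φ v - ψ n‖ * ‖v - u‖ ≤ ε * ‖v - u‖ :=
      mul_le_mul_of_nonneg_right (h1 ▸ hn.le) (norm_nonneg _)
    rw [sub_apply, map_sub (φ v)] at h2
    linarith [hφ1 v u, hφ2 v]
  obtain ⟨n, u, hu⟩ := nonempty_interior_of_iUnion_of_closed hA hcov
  obtain ⟨r, hr, hb⟩ := Metric.nhds_basis_closedBall.mem_iff.1 (mem_interior_iff_mem_nhds.1 hu)
  refine ⟨u, ψ n, r, hr, fun h hh => ?_⟩
  have := hb (show u + h ∈ Metric.closedBall u r by simpa using hh) u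
  rwa [add_sub_cancel_left] at this

/-- a Lipschitz function on a space with separable dual is almost affine on some ball -/
theorem lip_flat [CompleteSpace X] (hs : SeparableSpace (StrongDual ℝ X)) (g : X → ℝ) (L : ℝ)
    (hg : ∀ x y, g x - g y ≤ L * ‖x - y‖) (ε : ℝ) (hε : 0 < ε) :
    ∃ (x : X) (ψ : StrongDual ℝ X) (δ : ℝ), 0 < δ ∧
      ∀ h, ‖h‖ ≤ δ → |g (x + h) - g x - ψ h| ≤ ε * δ := by
  let D : X → Set ℝ := fun v => {a | ∃ (y : X) (t : ℝ), 0 < t ∧ a = (g (y + t • v) - g y) / t}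
  have hD : ∀ v, ∀ a ∈ D v, a ≤ L * ‖v‖ := by
    rintro v _ ⟨y, t, ht, rfl⟩
    have := hg (y + t • v) y
    rw [add_sub_cancel_left, norm_smul, Real.norm_of_nonneg ht.le] at this
    rw [div_le_iff₀ ht]
    linarith
  have hne : ∀ v, (D v).Nonempty := fun v => ⟨_, 0, 1, one_pos, rfl⟩
  let p : X → ℝ := fun v => sSup (D v)
  have lep : ∀ v y t, 0 < t → g (y + t • v) - g y ≤ t * p v := fun v y t ht => by
    have : (g (y + t • v) - g y) / t ≤ p v := le_csSup ⟨_, hD v⟩ ⟨y, t, ht, rfl⟩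
    rwa [div_le_iff₀ ht, mul_comm] at this
  have ple : ∀ v b, (∀ y t, 0 < t → g (y + t • v) - g y ≤ t * b) → p v ≤ b := fun v b h =>
    csSup_le (hne v) (by
      rintro _ ⟨y, t, ht, rfl⟩
      rw [div_le_iff₀ ht, mul_comm]
      exact h y t ht)
  have hadd : ∀ v w, p (v + w) ≤ p v + p w := fun v w => ple _ _ fun y t ht => by
    have h1 := lep v y t ht
    have h2 := lep w (y + t • v) t ht
    rw [smul_add, ← add_assoc]
    linarith
  have hs' : ∀ c : ℝ, 0 < c → ∀ v, p (c • v) ≤ c * p v := fun c hc v => ple _ _ fun y t ht => by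
    have := lep v y (t * c) (by positivity)
    rw [smul_smul]
    linarith
  have hsmul : ∀ c : ℝ, 0 < c → ∀ v, p (c • v) = c * p v := by
    intro s hs0 y
    refine le_antisymm (hs' s hs0 y) ?_
    have := hs' s⁻¹ (inv_pos.2 hs0) (s • y)
    rw [smul_smul, inv_mul_cancel₀ hs0.ne', one_smul] at this
    calc s * p y ≤ s * (s⁻¹ * p (s • y)) := mul_le_mul_of_nonneg_left this hs0.le
      _ = p (s • y) := by field_simp
  obtain ⟨u, ψ, r, hr, hu⟩ := sublin_flat hs p L hadd hsmul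
    (fun v => csSup_le (hne v) (hD v)) (ε / 2) (by positivity)
  obtain ⟨_, ⟨y, t2, ht2, rfl⟩, hy⟩ := exists_lt_of_lt_csSup (hne u)
    (show p u - ε * r / 4 < p u by nlinarith [mul_pos hε hr])
  obtain ⟨t, rfl⟩ : ∃ t, t2 = t + t := ⟨t2 / 2, by ring⟩
  have ht : 0 < t := by linarith
  rw [lt_div_iff₀ ht2, add_smul, ← add_assoc] at hy
  have b1 := lep u y t ht
  have b2 := lep u (y + t • u) t ht
  refine ⟨y + t • u, ψ, t * r, by positivity, fun h hh => ?_⟩
  obtain ⟨k, rfl⟩ : ∃ k : X, h = t • k := ⟨t⁻¹ • h, by rw [smul_inv_smul₀ ht.ne']⟩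
  rw [norm_smul, Real.norm_of_nonneg ht.le] at hh
  have hk : ‖k‖ ≤ r := le_of_mul_le_mul_left hh ht
  have c1 := lep (u + k) y t ht
  have c2 := lep (u + -k) (y + t • u + t • k) t ht
  have c3 := mul_le_mul_of_nonneg_left (hu k hk) ht.le
  have c4 := mul_le_mul_of_nonneg_left (hu (-k) (by simpa using hk)) ht.le
  have c5 : t * (ε / 2 * ‖k‖) ≤ t * (ε / 2 * r) := by gcongr
  rw [smul_add, ← add_assoc] at c1
  rw [show y + t • u + t • k + t • (u + -k) = y + t • u + t • u by module] at c2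
  rw [map_neg, norm_neg] at c4
  rw [map_smul, smul_eq_mul, abs_le]
  constructor <;> nlinarith

/-- a nonseparable normed space has an uncountable separated subset of the unit ball -/
theorem exists_separated {V : Type} [NormedAddCommGroup V] [NormedSpace ℝ V]
    (h : ¬ SeparableSpace V) : ∃ S : Set V, ¬ S.Countable ∧ (∀ v ∈ S, ‖v‖ ≤ 3) ∧
      S.Pairwise fun v w => 1 ≤ ‖v - w‖ := by
  obtain ⟨S, hS⟩ := zorn_subset {S : Set V | (∀ v ∈ S, ‖v‖ ≤ 3) ∧
      S.Pairwise fun v w => 1 ≤ ‖v - w‖} (fun c hc hch => by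
    refine ⟨⋃₀ c, ⟨?_, ?_⟩, fun s hs => Set.subset_sUnion_of_mem hs⟩
    · rintro v ⟨s, hs, hv⟩
      exact (hc hs).1 v hv
    · rintro v ⟨s, hs, hv⟩ w ⟨s', hs', hw⟩ hvw
      rcases hch.total hs hs' with h1 | h1
      · exact (hc hs').2 (h1 hv) hw hvw
      · exact (hc hs).2 hv (h1 hw) hvw)
  refine ⟨S, fun hc => ?_, hS.prop.1, hS.prop.2⟩
  have hN : ∃ f, f ∉ (Submodule.span ℝ S).topologicalClosure := by
    by_contra hcon
    push Not at hcon
    exact h (isSeparable_univ_iff.1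
      ((hc.isSeparable.span (R := ℝ)).closure.mono fun f _ => hcon f))
  obtain ⟨f, hf3, hf⟩ := riesz_lemma_of_norm_lt (𝕜 := ℝ) (c := 2) (by norm_num) (R := 3)
    (by norm_num) (Submodule.isClosed_topologicalClosure _) hN
  have hf' : ∀ v ∈ S, 1 ≤ ‖f - v‖ := fun v hv =>
    hf v (Submodule.le_topologicalClosure _ (Submodule.subset_span hv))
  have hin : f ∈ S := by
    refine hS.le_of_ge (y := insert f S) ⟨?_, ?_⟩ (Set.subset_insert _ _) (Set.mem_insert _ _)
    · rintro v (rfl | hv)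
      · exact hf3
      · exact hS.prop.1 v hv
    · refine hS.prop.2.insert fun v hv _ => ⟨hf' v hv, ?_⟩
      rw [norm_sub_rev]; exact hf' v hv
  have := hf' f hin
  rw [sub_self, norm_zero] at this
  linarith

theorem sep_dual4 (X Y : Type) [NormedAddCommGroup X] [NormedSpace ℝ X] [CompleteSpace X]
    [SeparableSpace X] [NormedAddCommGroup Y] [NormedSpace ℝ Y] (h : LipIso X Y)
    (hs : SeparableSpace (StrongDual ℝ X)) : SeparableSpace (StrongDual ℝ Y) := by
  by_contra hY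
  obtain ⟨f, c, C, hc, hcC, hf⟩ := h
  obtain ⟨S, hS, hS3, hSp⟩ := exists_separated hY
  have hC : 0 < C := hc.trans_le hcC
  set ε : ℝ := c / 40 with hε
  have hε0 : 0 < ε := by positivity
  have hg : ∀ η ∈ S, ∀ x y, η (f x) - η (f y) ≤ 3 * C * ‖x - y‖ := by
    intro η hη x y
    have h1 := (le_abs_self _).trans (η.le_opNorm (f x - f y))
    have h2 := mul_le_mul (hS3 η hη) (hf x y).2 (norm_nonneg _) (by norm_num)
    rw [map_sub] at h1
    linarith
  let u : ℕ → X := denseSeq X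
  let ψ : ℕ → StrongDual ℝ X := denseSeq _
  have key : ∀ η ∈ S, ∃ k : ℕ × ℕ × ℚ, (0 : ℝ) < k.2.2 ∧
      ∀ h, ‖h‖ ≤ k.2.2 → |η (f (u k.1 + h)) - η (f (u k.1)) - ψ k.2.1 h| ≤ 8 * ε * k.2.2 := by
    intro η hη
    obtain ⟨x, φ, δ, hδ, hx⟩ := lip_flat hs (fun x => η (f x)) (3 * C) (hg η hη) ε hε0
    obtain ⟨q, hq1, hq2⟩ := exists_rat_btwn (show δ / 3 < δ / 2 by linarith)
    obtain ⟨a, ha⟩ := (denseRange_denseSeq X).exists_dist_lt x (half_pos hδ)
    obtain ⟨b, hb⟩ := (denseRange_denseSeq (StrongDual ℝ X)).exists_dist_lt φ hε0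
    refine ⟨(a, b, q), by simp only; linarith, fun h hh => ?_⟩
    simp only at hh ⊢
    rw [dist_comm, dist_eq_norm] at ha
    have h1 := hx (u a - x + h) ((norm_add_le _ _).trans (by linarith))
    have h2 := hx (u a - x) (by linarith)
    have h3 : dist φ (ψ b) = ‖φ - ψ b‖ := dist_eq_norm φ (ψ b)
    have h4 : |(φ - ψ b) h| ≤ ε * q := ((φ - ψ b).le_opNorm h).trans
      (mul_le_mul (h3 ▸ hb.le) hh (norm_nonneg _) hε0.le)
    rw [← add_assoc, add_sub_cancel, map_add φ] at h1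
    rw [add_sub_cancel] at h2
    rw [sub_apply] at h4
    have h5 : ε * δ ≤ 3 * ε * q := by nlinarith
    have h6 : 0 ≤ ε * q := by nlinarith
    rw [abs_le] at h1 h2 h4 ⊢
    constructor <;> linarith [h1.1, h1.2, h2.1, h2.2, h4.1, h4.2]
  choose! k hk0 hk using key
  have hinj : Set.InjOn k S := by
    intro η hη η' hη' hkk
    by_contra hne
    have h1 := hSp hη hη' hne
    obtain ⟨z, hz1, hz2⟩ := (η - η').exists_lt_apply_of_lt_opNorm (r := 1 / 2) (by linarith)
    set q : ℝ := ((k η).2.2 : ℝ) with hq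
    have hq0 : 0 < q := hk0 η hη
    set x := u (k η).1 with hx
    let h : X := f.symm (f x + (c * q) • z) - x
    have hfx : f (x + h) = f x + (c * q) • z := by simp [h]
    have hh : ‖h‖ ≤ q := by
      have := (hf (x + h) x).1
      rw [hfx, add_sub_cancel_left, add_sub_cancel_left, norm_smul,
        Real.norm_of_nonneg (by positivity)] at this
      have h2 : c * ‖h‖ ≤ c * q := this.trans (by nlinarith [mul_pos hc hq0])
      exact le_of_mul_le_mul_left h2 hc
    have a1 := hk η hη h hh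
    have a2 := hk η' hη' h (by rw [← hkk]; exact hh)
    rw [← hkk, ← hx, ← hq, hfx, map_add, map_smul, smul_eq_mul] at a2
    rw [← hx, ← hq, hfx, map_add, map_smul, smul_eq_mul] at a1
    rw [sub_apply, Real.norm_eq_abs] at hz2
    have a3 : c * q * |η z - η' z| ≤ 16 * ε * q := by
      rw [← abs_of_pos (mul_pos hc hq0), ← abs_mul, abs_le]
      rw [abs_le] at a1 a2
      constructor <;> linarith [a1.1, a1.2, a2.1, a2.2]
    have a4 := mul_lt_mul_of_pos_left hz2 (mul_pos hc hq0)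
    rw [hε] at a3
    nlinarith [mul_pos hc hq0]
  exact hS (Set.countable_of_injective_of_countable_image hinj (Set.to_countable _))

end N124
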