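import Vale.Agent.N124.Ext

/-!
P124, second hand-in: a separable space with the ball property and nonseparable dual contains a
complemented copy of `C(Δ)` (Lazar-Lindenstrauss), by a direct tree construction.
-/

open Finset Filter Topology TopologicalSpace

namespace N124

variable {X : Type} [NormedAddCommGroup X] [NormedSpace ℝ X]

/-- a set of extreme points that is weak-star dense in itself, in a strong sense -/
structure Rich (Γ : Set (StrongDual ℝ X)) : Prop where
  ext : ∀ ψ ∈ Γ, Ext ψ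
  ne : Γ.Nonempty
  acc : ∀ ψ ∈ Γ, ∀ (V : Finset X) (δ : ℝ), 0 < δ → ∀ F : Finset (StrongDual ℝ X),
    ∃ ψ' ∈ Γ, ψ' ∉ F ∧ ∀ v ∈ V, |ψ' v - ψ v| ≤ δ

theorem exists_rich [SeparableSpace X] (h : ¬ {ψ : StrongDual ℝ X | Ext ψ}.Countable) :
    ∃ Γ : Set (StrongDual ℝ X), Rich Γ := by
  classical
  let u : ℕ → X := denseSeq X
  have hu : DenseRange u := denseRange_denseSeq X
  let ev : StrongDual ℝ X → ℕ → ℝ := fun ψ m => ψ (u m)
  let U : Set (StrongDual ℝ X) := {ψ | Ext ψ}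
  let b := countableBasis (ℕ → ℝ)
  let bad : Set (StrongDual ℝ X) := ⋃ B ∈ {B ∈ b | (ev ⁻¹' B ∩ U).Countable}, ev ⁻¹' B ∩ U
  have hbad : bad.Countable :=
    Set.Countable.biUnion ((countable_countableBasis _).mono (Set.sep_subset _ _)) fun B hB => hB.2
  refine ⟨U \ bad, fun ψ hψ => hψ.1, ?_, fun ψ hψ V δ hδ F => ?_⟩
  · by_contra hne
    rw [Set.not_nonempty_iff_eq_empty, Set.sdiff_eq_empty] at hne
    exact h (hbad.mono hne)
  have hap : ∀ v : X, ∃ m, ‖v - u m‖ < δ / 3 := fun v => by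
    obtain ⟨m, hm⟩ := hu.exists_dist_lt v (show 0 < δ / 3 by positivity)
    exact ⟨m, by rwa [← dist_eq_norm]⟩
  choose m hm using hap
  let O : Set (ℕ → ℝ) := ⋂ v ∈ V, {w | |w (m v) - ψ (u (m v))| < δ / 3}
  have hO : IsOpen O := isOpen_biInter_finset fun v _ =>
    isOpen_lt (by fun_prop) continuous_const
  have hψO : ev ψ ∈ O := by
    simp only [O, Set.mem_iInter, Set.mem_ofPred_eq, ev, sub_self, abs_zero]
    intro v _; positivity
  obtain ⟨B, hB, hψB, hBO⟩ := (isBasis_countableBasis (ℕ → ℝ)).exists_subset_of_mem_open hψO hO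
  have hunc : ¬ (ev ⁻¹' B ∩ U).Countable := fun hc =>
    hψ.2 (Set.mem_biUnion (show B ∈ {B ∈ b | (ev ⁻¹' B ∩ U).Countable} from ⟨hB, hc⟩) ⟨hψB, hψ.1⟩)
  have : ∃ ψ' ∈ ev ⁻¹' B ∩ U, ψ' ∉ bad ∪ (F : Set _) := by
    by_contra hcon
    push Not at hcon
    exact hunc ((hbad.union F.countable_toSet).mono hcon)
  obtain ⟨ψ', ⟨h1, h2⟩, h3⟩ := this
  refine ⟨ψ', ⟨h2, fun h4 => h3 (Or.inl h4)⟩, fun h4 => h3 (Or.inr h4), fun v hv => ?_⟩
  have h5 := hBO h1
  simp only [O, Set.mem_iInter, Set.mem_ofPred_eq, ev] at h5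
  have h6 := abs_lt.1 (h5 v hv)
  have h7 := abs_le.1 ((abs_apply_le h2.1 (v - u (m v))).trans (hm v).le)
  have h8 := abs_le.1 ((abs_apply_le hψ.1.1 (v - u (m v))).trans (hm v).le)
  rw [map_sub] at h7 h8
  rw [abs_le]
  constructor <;> linarith [h6.1, h6.2, h7.1, h7.2, h8.1, h8.2]

/-- choice of points that are distinct up to sign -/
theorem choose_distinct {κ : Type} (A : κ → Set (StrongDual ℝ X))
    (hA : ∀ k (F : Finset (StrongDual ℝ X)), ∃ ψ ∈ A k, ψ ∉ F) (s : Finset κ) :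
    ∃ f : κ → StrongDual ℝ X, (∀ k, f k ∈ A k) ∧
      ∀ k ∈ s, ∀ l ∈ s, k ≠ l → f k ≠ f l ∧ f k ≠ -f l := by
  classical
  induction s using Finset.induction_on with
  | empty =>
    choose f hf _ using fun k => hA k ∅
    exact ⟨f, hf, by simp⟩
  | insert k s hk ih =>
    obtain ⟨f, hf, hd⟩ := ih
    obtain ⟨ψ, hψ, hF⟩ := hA k (s.image f ∪ s.image fun l => -f l)
    simp only [mem_union, mem_image, not_or, not_exists, not_and] at hF
    refine ⟨Function.update f k ψ, fun l => ?_, fun l hl l' hl' hne => ?_⟩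
    · by_cases h : l = k
      · subst h; simpa using hψ
      · simpa [h] using hf l
    · rcases mem_insert.1 hl with rfl | hm <;> rcases mem_insert.1 hl' with rfl | hm'
      · exact absurd rfl hne
      · have : l' ≠ l := hne.symm
        simp only [Function.update_self, Function.update_of_ne this]
        exact ⟨fun h => hF.1 l' hm' h.symm, fun h => hF.2 l' hm' h.symm⟩
      · simp only [Function.update_self, Function.update_of_ne hne]
        exact ⟨fun h => hF.1 l hm h, fun h => hF.2 l hm (by rw [h, neg_neg])⟩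
      · have h1 : l ≠ k := fun h => hk (h ▸ hm)
        have h2 : l' ≠ k := fun h => hk (h ▸ hm')
        simp only [Function.update_of_ne h1, Function.update_of_ne h2]
        exact hd l hm l' hm' hne

theorem norm_le_of_dual {v : X} {C : ℝ} (h : ∀ φ : StrongDual ℝ X, ‖φ‖ ≤ 1 → φ v ≤ C) :
    ‖v‖ ≤ C := by
  obtain ⟨g, hg1, hg2⟩ := exists_dual_vector'' ℝ v
  have h1 : g v = ‖v‖ := hg2
  rw [← h1]
  exact h g hg1

/-- the sign of a real number -/
noncomputable def sg (b : Bool) : ℝ := cond b 1 (-1)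

theorem abs_sg (b : Bool) : |sg b| = 1 := by cases b <;> simp [sg]

theorem exists_sg (a s : ℝ) : ∃ b, sg b * a * s = |a| * |s| := by
  rcases le_total 0 (a * s) with h | h
  · exact ⟨true, by rw [← abs_mul, abs_of_nonneg h]; simp [sg]⟩
  · exact ⟨false, by rw [← abs_mul, abs_of_nonpos h]; simp [sg]⟩

/-- splitting one vector -/
theorem split_one (hX : ABall X) {ι κ : Type} [Fintype ι] [Fintype κ] (w : ι → X) (x₀ : X)
    (C : ℝ) (hC : ∀ φ : StrongDual ℝ X, ‖φ‖ ≤ 1 → ∑ i, |φ (w i)| + |φ x₀| ≤ C)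
    (ψ : κ → StrongDual ℝ X) (hψ : ∀ k, Ext (ψ k))
    (hne : ∀ k l, k ≠ l → ψ k ≠ ψ l ∧ ψ k ≠ -ψ l) (P : κ → Prop) [DecidablePred P]
    (ε : ℝ) (hε : 0 < ε) :
    ∃ y, (∀ φ : StrongDual ℝ X, ‖φ‖ ≤ 1 → ∑ i, |φ (w i)| + |φ (x₀ - y)| + |φ y| ≤ C + ε) ∧
      ∀ k, |ψ k y - if P k then ψ k x₀ else 0| ≤ ε := by
  classical
  let W : (ι → Bool) → X := fun τ => ∑ i, sg (τ i) • w i
  have hW : ∀ (φ : StrongDual ℝ X) τ, |φ (W τ)| ≤ ∑ i, |φ (w i)| := by
    intro φ τ
    simp only [W, map_sum, map_smul, smul_eq_mul]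
    refine (abs_sum_le_sum_abs _ _).trans (le_of_eq (sum_congr rfl fun i _ => ?_))
    rw [abs_mul, abs_sg, one_mul]
  have hWn : ∀ τ, ‖W τ‖ ≤ C := fun τ => norm_le_of_dual fun φ hφ => by
    linarith [le_abs_self (φ (W τ)), hW φ τ, hC φ hφ, abs_nonneg (φ x₀)]
  obtain ⟨v, hv1, hv2⟩ := interp2 hX ψ hψ hne (fun k => if P k then ψ k x₀ else -ψ k x₀) W
    (fun _ => C) (fun τ τ' => (norm_sub_le _ _).trans (add_le_add (hWn τ) (hWn τ')))
    (fun k τ => by
      have h1 := hW (ψ k) τ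
      have h2 := hC (ψ k) (hψ k).1
      refine (abs_sub _ _).trans ?_
      split_ifs
      · linarith
      · rw [abs_neg]; linarith) ε hε
  refine ⟨(1 / 2 : ℝ) • (v + x₀), fun φ hφ => ?_, fun k => ?_⟩
  · have h1 := hC φ hφ
    have h2 : ∑ i, |φ (w i)| + |φ v| ≤ C + ε := by
      obtain ⟨s, hs⟩ := exists_sg (φ v) 1
      choose τ hτ using fun i => exists_sg (φ (w i)) (-sg s)
      have h3 := abs_apply_le hφ (v - W τ)
      have h4 : sg s * φ (v - W τ) = |φ v| + ∑ i, |φ (w i)| := by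
        rw [map_sub, mul_sub, sub_eq_add_neg]
        congr 1
        · simpa using hs
        · simp only [W, map_sum, map_smul, smul_eq_mul, mul_sum, ← sum_neg_distrib]
          refine sum_congr rfl fun i _ => ?_
          have := hτ i
          rw [abs_neg, abs_sg] at this
          linarith
      have h5 : sg s * φ (v - W τ) ≤ |φ (v - W τ)| := by
        refine (le_abs_self _).trans (le_of_eq ?_)
        rw [abs_mul, abs_sg, one_mul]
      linarith [hv1 τ]
    rw [map_sub, map_smul, map_add, smul_eq_mul]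
    have h6 : |φ x₀ - 1 / 2 * (φ v + φ x₀)| + |1 / 2 * (φ v + φ x₀)| ≤ max |φ x₀| |φ v| := by
      have a1 := abs_le.1 (le_max_left |φ x₀| |φ v|)
      have a2 := abs_le.1 (le_max_right |φ x₀| |φ v|)
      rcases abs_cases (φ x₀ - 1 / 2 * (φ v + φ x₀)) with h | h <;>
      rcases abs_cases (1 / 2 * (φ v + φ x₀)) with h' | h' <;>
      linarith [h.1, h'.1, a1.1, a1.2, a2.1, a2.2]
    rcases max_cases |φ x₀| |φ v| with h | h <;> linarith [h.1]
  · have := abs_le.1 (hv2 k)
    rw [map_smul, map_add, smul_eq_mul, abs_le]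
    split_ifs at this ⊢ <;> constructor <;> linarith [this.1, this.2]

/-- splitting all vectors -/
theorem split_all (hX : ABall X) {ι κ : Type} [Fintype ι] [Fintype κ] (x : ι → X)
    (C : ℝ) (hC : ∀ φ : StrongDual ℝ X, ‖φ‖ ≤ 1 → ∑ i, |φ (x i)| ≤ C)
    (ψ : κ → StrongDual ℝ X) (hψ : ∀ k, Ext (ψ k))
    (hne : ∀ k l, k ≠ l → ψ k ≠ ψ l ∧ ψ k ≠ -ψ l) (P : ι → κ → Prop) [∀ i, DecidablePred (P i)]
    (ε : ℝ) (hε : 0 < ε) (s : Finset ι) :
    ∃ y : ι → X, (∀ i ∉ s, y i = 0) ∧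
      (∀ φ : StrongDual ℝ X, ‖φ‖ ≤ 1 → ∑ i, (|φ (x i - y i)| + |φ (y i)|) ≤ C + s.card * ε) ∧
      ∀ i ∈ s, ∀ k, |ψ k (y i) - if P i k then ψ k (x i) else 0| ≤ ε := by
  classical
  induction s using Finset.induction_on with
  | empty => exact ⟨0, by simp, by simpa using hC, by simp⟩
  | insert i₀ s hi ih =>
    obtain ⟨y, hy0, hy1, hy2⟩ := ih
    let w : ι × Bool → X := fun p => if p.1 = i₀ then 0 else cond p.2 (y p.1) (x p.1 - y p.1)
    have hw : ∀ φ : StrongDual ℝ X, ∑ p, |φ (w p)|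
        = ∑ i ∈ univ.erase i₀, (|φ (x i - y i)| + |φ (y i)|) := by
      intro φ
      rw [Fintype.sum_prod_type, ← add_sum_erase _ _ (mem_univ i₀)]
      simp only [w, if_true, map_zero, abs_zero, sum_const_zero, zero_add]
      refine sum_congr rfl fun i hi => ?_
      simp [(mem_erase.1 hi).1, add_comm]
    obtain ⟨y₀, h1, h2⟩ := split_one hX w (x i₀) (C + s.card * ε) (fun φ hφ => by
      have := hy1 φ hφ
      rw [← add_sum_erase _ _ (mem_univ i₀), hy0 i₀ hi] at this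
      rw [hw]
      simp only [sub_zero, map_zero, abs_zero, add_zero] at this
      linarith) ψ hψ hne (P i₀) ε hε
    refine ⟨Function.update y i₀ y₀, fun i hi' => ?_, fun φ hφ => ?_, fun i hi' k => ?_⟩
    · rw [mem_insert, not_or] at hi'
      rw [Function.update_of_ne hi'.1, hy0 i hi'.2]
    · have := h1 φ hφ
      rw [hw] at this
      rw [← add_sum_erase _ _ (mem_univ i₀), Function.update_self, card_insert_of_notMem hi,
        sum_congr rfl (g := fun i => |φ (x i - y i)| + |φ (y i)|)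
          (fun i hi => by rw [Function.update_of_ne (mem_erase.1 hi).1])]
      push_cast
      linarith
    · rcases mem_insert.1 hi' with rfl | hi'
      · rw [Function.update_self]; exact h2 k
      · have h3 : i ≠ i₀ := fun h => hi (h ▸ hi')
        rw [Function.update_of_ne h3]; exact hy2 i hi' k

/-- one level of the tree -/
theorem level (hX : ABall X) {Γ : Set (StrongDual ℝ X)} (hΓ : Rich Γ) {ι : Type} [Fintype ι]
    [DecidableEq ι] (x : ι → X) (ψ : ι → StrongDual ℝ X) (hψ : ∀ i, ψ i ∈ Γ) (β : ℝ)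
    (h1 : ∀ φ : StrongDual ℝ X, ‖φ‖ ≤ 1 → ∑ i, |φ (x i)| ≤ 1 + β)
    (h2 : ∀ i, ∑ j, |ψ i (x j) - if i = j then 1 else 0| ≤ β) (V : Finset X) (θ : ℝ)
    (hθ : 0 < θ) :
    ∃ (x' : ι × Bool → X) (ψ' : ι × Bool → StrongDual ℝ X), (∀ p, ψ' p ∈ Γ) ∧
      (∀ φ : StrongDual ℝ X, ‖φ‖ ≤ 1 → ∑ p, |φ (x' p)| ≤ 1 + (β + θ)) ∧
      (∀ p, ∑ q, |ψ' p (x' q) - if p = q then 1 else 0| ≤ β + θ) ∧
      (∀ i, x' (i, false) + x' (i, true) = x i) ∧
      ∀ p, ∀ v ∈ V, |ψ' p v - ψ p.1 v| ≤ θ := by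
  classical
  set N : ℝ := (Fintype.card ι : ℝ) with hN
  have hN0 : 0 ≤ N := Nat.cast_nonneg _
  set ε : ℝ := θ / (3 * N + 1) with hε
  have hε0 : 0 < ε := by positivity
  have hεθ : (3 * N + 1) * ε = θ := by rw [hε]; field_simp
  have hNε : 0 ≤ N * ε := by positivity
  obtain ⟨ψ', hψ', hd⟩ := choose_distinct (κ := ι × Bool)
    (fun p => {χ ∈ Γ | ∀ v ∈ V ∪ univ.image x, |χ v - ψ p.1 v| ≤ ε})
    (fun p F => by
      obtain ⟨χ, a1, a2, a3⟩ := hΓ.acc _ (hψ p.1) (V ∪ univ.image x) ε hε0 F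
      exact ⟨χ, ⟨a1, a3⟩, a2⟩) univ
  obtain ⟨y, -, hy1, hy2⟩ := split_all hX x (1 + β) h1 ψ' (fun p => hΓ.ext _ (hψ' p).1)
    (fun k l h => hd k (mem_univ _) l (mem_univ _) h) (fun i p => p = (i, true)) ε hε0 univ
  refine ⟨fun p => cond p.2 (y p.1) (x p.1 - y p.1), ψ', fun p => (hψ' p).1, fun φ hφ => ?_,
    fun p => ?_, fun i => by simp, fun p v hv => ?_⟩
  · have := hy1 φ hφ
    rw [card_univ, ← hN] at this
    rw [Fintype.sum_prod_type]
    simp only [Fintype.sum_bool, cond_true, cond_false]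
    rw [sum_congr rfl fun i _ => add_comm _ _]
    linarith
  · obtain ⟨i, b⟩ := p
    rw [Fintype.sum_prod_type]
    have key : ∀ j, ∑ b', |ψ' (i, b) (cond b' (y j) (x j - y j)) - if (i, b) = (j, b') then 1 else 0|
        ≤ |ψ i (x j) - if i = j then 1 else 0| + 3 * ε := by
      intro j
      have a1 := abs_le.1 (hy2 j (mem_univ _) (i, b))
      have a2 := abs_le.1 ((hψ' (i, b)).2 (x j) (mem_union_right _ (mem_image_of_mem _ (mem_univ _))))
      have a3 := abs_le.1 (le_refl |ψ i (x j) - if i = j then 1 else 0|)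
      simp only [Fintype.sum_bool, cond_true, cond_false, map_sub, Prod.mk.injEq] at a1 a2 a3 ⊢
      generalize |ψ i (x j) - if i = j then 1 else 0| = M at a3 ⊢
      generalize ψ i (x j) = B at a2 a3
      generalize ψ' (i, b) (x j) = A at a1 a2 ⊢
      generalize ψ' (i, b) (y j) = Y at a1 ⊢
      have hab : ∀ p q : ℝ, (p + q ≤ M + 3 * ε ∧ p - q ≤ M + 3 * ε ∧ -p + q ≤ M + 3 * ε ∧
          -p - q ≤ M + 3 * ε) → |p| + |q| ≤ M + 3 * ε := by
        intro p q h
        rcases abs_cases p with h' | h' <;> rcases abs_cases q with h'' | h'' <;>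
          linarith [h.1, h.2.1, h.2.2.1, h.2.2.2, h'.1, h''.1]
      apply hab
      by_cases hij : i = j <;> cases b <;>
        simp only [hij, true_and, false_and, if_true, if_false, Bool.false_eq_true,
          Bool.true_eq_false, sub_zero] at a1 a3 ⊢ <;>
        refine ⟨?_, ?_, ?_, ?_⟩ <;> linarith [a1.1, a1.2, a2.1, a2.2, a3.1, a3.2]
    refine (sum_le_sum fun j _ => key j).trans ?_
    rw [sum_add_distrib, sum_const, card_univ, nsmul_eq_mul, ← hN]
    linarith [h2 i]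
  · exact ((hψ' p).2 v (mem_union_left _ hv)).trans (by linarith)

/-- nodes of level `n` of the binary tree -/
def Node : ℕ → Type
  | 0 => Unit
  | n + 1 => Node n × Bool

instance nodeFin : ∀ n, Fintype (Node n)
  | 0 => inferInstanceAs (Fintype Unit)
  | n + 1 => @instFintypeProd _ _ (nodeFin n) _

instance nodeDec : ∀ n, DecidableEq (Node n)
  | 0 => inferInstanceAs (DecidableEq Unit)
  | n + 1 => @instDecidableEqProd _ _ (nodeDec n) _

/-- the node of level `n` below a branch -/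
def pr : ∀ n, Can → Node n
  | 0, _ => ()
  | n + 1, t => (pr n t, t n)

/-- a branch through a node -/
def ex : ∀ n, Node n → Can
  | 0, _ => fun _ => false
  | n + 1, p => Function.update (ex n p.1) n p.2

theorem pr_congr : ∀ (n) (t t' : Can), (∀ i < n, t i = t' i) → pr n t = pr n t'
  | 0, _, _, _ => rfl
  | n + 1, t, t', h => by
    show (pr n t, t n) = (pr n t', t' n)
    rw [pr_congr n t t' fun i hi => h i (by omega), h n (by omega)]

theorem pr_update (n : ℕ) (t : Can) (b : Bool) : pr n (Function.update t n b) = pr n t :=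
  pr_congr n _ _ fun _ hi => Function.update_of_ne hi.ne _ _

theorem pr_ex : ∀ n (p : Node n), pr n (ex n p) = p
  | 0, _ => rfl
  | n + 1, p => by
    show (pr n (Function.update (ex n p.1) n p.2), Function.update (ex n p.1) n p.2 n) = p
    rw [pr_update, pr_ex n, Function.update_self]
    rfl

theorem ex_pr : ∀ n (t : Can), ∀ i < n, ex n (pr n t) i = t i
  | 0, _, _, h => absurd h (Nat.not_lt_zero _)
  | n + 1, t, i, h => by
    show Function.update (ex n (pr n t)) n (t n) i = t i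
    by_cases hi : i = n
    · subst hi; simp
    · rw [Function.update_of_ne hi, ex_pr n t i (by omega)]

theorem cont_pr (n : ℕ) (f : Node n → ℝ) : Continuous fun t => f (pr n t) := by
  let F : (Fin n → Bool) → ℝ := fun σ => f (pr n fun i => if h : i < n then σ ⟨i, h⟩ else false)
  have h : (fun t : Can => f (pr n t)) = fun t => F fun i => t i := by
    funext t
    exact congrArg f (pr_congr n t _ fun i hi => by simp only [dif_pos hi])
  rw [h]
  have h2 : Continuous fun (t : Can) (i : Fin n) => t i :=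
    continuous_pi fun i => continuous_apply (i : ℕ)
  exact (continuous_of_discreteTopology (f := F)).comp h2

theorem cut_unif (g : C(Can, ℝ)) (ε : ℝ) (hε : 0 < ε) :
    ∃ N, ∀ n ≥ N, ∀ t, |g t - g (ex n (pr n t))| ≤ ε := by
  have h1 : TendstoUniformly (fun n (t : Can) => ex n (pr n t)) (fun t => t) atTop := by
    rw [tendstoUniformly_iff_tendsto, Pi.uniformity, tendsto_iInf]
    intro i
    rw [tendsto_comap_iff, tendsto_def]
    intro u hu
    rw [mem_prod_top]
    filter_upwards [eventually_gt_atTop i] with n hn t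
    show (t i, ex n (pr n t) i) ∈ u
    rw [ex_pr n t i hn]
    exact refl_mem_uniformity hu
  have h2 := (CompactSpace.uniformContinuous_of_continuous g.continuous).comp_tendstoUniformly h1
  obtain ⟨N, hN⟩ := eventually_atTop.1 (Metric.tendstoUniformly_iff.1 h2 ε hε)
  exact ⟨N, fun n hn t => (hN n hn t).le⟩

/-- pointwise limits of bounded sequences of operators -/
theorem lim_clm {E F : Type} [NormedAddCommGroup E] [NormedSpace ℝ E] [CompleteSpace E]
    [NormedAddCommGroup F] [NormedSpace ℝ F] [CompleteSpace F] (A : ℕ → E →L[ℝ] F)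
    (h : ∀ x, CauchySeq fun n => A n x) :
    ∃ B : E →L[ℝ] F, ∀ x, Tendsto (fun n => A n x) atTop (𝓝 (B x)) := by
  choose f hf using fun x => cauchySeq_tendsto_of_complete (h x)
  exact ⟨continuousLinearMapOfTendsto A (f := f) (tendsto_pi_nhds.2 hf), hf⟩

/-- error bound at level `n` -/
noncomputable def bet (n : ℕ) : ℝ := 1 / 2 - (1 / 2) ^ n / 4

/-- the data at level `n` -/
structure St (Γ : Set (StrongDual ℝ X)) (n : ℕ) where
  x : Node n → X
  ψ : Node n → StrongDual ℝ X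
  mem : ∀ i, ψ i ∈ Γ
  h1 : ∀ φ : StrongDual ℝ X, ‖φ‖ ≤ 1 → ∑ i, |φ (x i)| ≤ 1 + bet n
  h2 : ∀ i, ∑ j, |ψ i (x j) - if i = j then 1 else 0| ≤ bet n

theorem st_zero {Γ : Set (StrongDual ℝ X)} (hΓ : Rich Γ) : Nonempty (St Γ 0) := by
  obtain ⟨ψ, hψ⟩ := hΓ.ne
  have hn := (hΓ.ext ψ hψ).norm_eq
  obtain ⟨z, hz1, hz2⟩ := ψ.exists_lt_apply_of_lt_opNorm (r := 3 / 4) (by rw [hn]; norm_num)
  obtain ⟨x, hx1, hx2⟩ : ∃ x : X, ‖x‖ ≤ 1 ∧ 3 / 4 < ψ x := by
    rcases lt_abs.1 hz2 with h | h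
    · exact ⟨z, hz1.le, h⟩
    · exact ⟨-z, by simpa using hz1.le, by simpa using h⟩
  have hb : bet 0 = 1 / 4 := by norm_num [bet]
  refine ⟨⟨fun _ => x, fun _ => ψ, fun _ => hψ, fun φ hφ => ?_, fun i => ?_⟩⟩
  · show ∑ _ : Unit, |φ x| ≤ _
    have := abs_apply_le hφ x
    rw [hb, Fintype.sum_unique]
    linarith
  · have := (abs_le.1 ((abs_apply_le hn.le x).trans hx1)).2
    rw [sum_congr rfl fun j _ => by rw [if_pos (show i = j from rfl)]]
    show ∑ _ : Unit, |ψ x - 1| ≤ _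
    rw [hb, Fintype.sum_unique, abs_le]
    constructor <;> linarith

theorem st_succ (hX : ABall X) {Γ : Set (StrongDual ℝ X)} (hΓ : Rich Γ) (u : ℕ → X) (n : ℕ)
    (s : St Γ n) : ∃ s' : St Γ (n + 1), (∀ i, s'.x (i, false) + s'.x (i, true) = s.x i) ∧
      ∀ p : Node n × Bool, ∀ m ≤ n, |s'.ψ p (u m) - s.ψ p.1 (u m)| ≤ (1 / 2) ^ n / 8 := by
  classical
  obtain ⟨x', ψ', a1, a2, a3, a4, a5⟩ := level hX hΓ s.x s.ψ s.mem (bet n) s.h1 s.h2
    ((range (n + 1)).image u) ((1 / 2) ^ n / 8) (by positivity)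
  have hb : bet (n + 1) = bet n + (1 / 2) ^ n / 8 := by
    simp only [bet, pow_succ]; ring
  refine ⟨⟨x', ψ', a1, hb ▸ a2, hb ▸ a3⟩, a4, fun p m hm => ?_⟩
  exact a5 p _ (mem_image_of_mem _ (mem_range.2 (by omega)))

theorem tree : TreeStmt := by
  intro X _ _ _ _ hX hsep
  obtain ⟨Γ, hΓ⟩ := exists_rich (ext_uncountable hsep)
  let u : ℕ → X := denseSeq X
  have hu : DenseRange u := denseRange_denseSeq X
  obtain ⟨s0⟩ := st_zero hΓ
  choose nxt hn1 hn2 using st_succ hX hΓ u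
  let s : ∀ n, St Γ n := fun n => Nat.rec s0 nxt n
  have hx : ∀ n i, (s (n + 1)).x (i, false) + (s (n + 1)).x (i, true) = (s n).x i :=
    fun n => hn1 n (s n)
  have hψ : ∀ n (p : Node n × Bool), ∀ m ≤ n,
      |(s (n + 1)).ψ p (u m) - (s n).ψ p.1 (u m)| ≤ (1 / 2) ^ n / 8 := fun n => hn2 n (s n)
  have hψ1 : ∀ n i, ‖(s n).ψ i‖ ≤ 1 := fun n i => (hΓ.ext _ ((s n).mem i)).1
  have hbet : ∀ n, bet n ≤ 1 / 2 := fun n => by
    have : (0 : ℝ) ≤ (1 / 2) ^ n / 4 := by positivity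
    simp only [bet]; linarith
  -- the embedding
  let Jf : ℕ → (Can → ℝ) → X := fun n g => ∑ i, g (ex n i) • (s n).x i
  have Jb : ∀ n (g : Can → ℝ) (M : ℝ), (∀ t, |g t| ≤ M) → ‖Jf n g‖ ≤ 2 * M := by
    intro n g M hM
    have hM0 : 0 ≤ M := (abs_nonneg _).trans (hM fun _ => false)
    refine norm_le_of_dual fun φ hφ => ?_
    have h1 := (s n).h1 φ hφ
    calc φ (Jf n g) = ∑ i, g (ex n i) * φ ((s n).x i) := by
          simp only [Jf, map_sum, map_smul, smul_eq_mul]
      _ ≤ ∑ i, M * |φ ((s n).x i)| := sum_le_sum fun i _ => by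
          refine (le_abs_self _).trans ?_
          rw [abs_mul]
          exact mul_le_mul_of_nonneg_right (hM _) (abs_nonneg _)
      _ ≤ 2 * M := by
          rw [← mul_sum]
          nlinarith [hbet n]
  have Js : ∀ n (g : Can → ℝ), Jf (n + 1) (fun t => g (ex n (pr n t))) = Jf n g := by
    intro n g
    show ∑ p : Node n × Bool, g (ex n (pr n (Function.update (ex n p.1) n p.2)))
      • (s (n + 1)).x p = ∑ i, g (ex n i) • (s n).x i
    rw [Fintype.sum_prod_type]
    refine sum_congr rfl fun i _ => ?_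
    simp only [pr_update, pr_ex, Fintype.sum_bool]
    rw [← smul_add, add_comm, hx]
  have Jm : ∀ n (g : Can → ℝ), ∀ m ≥ n, Jf m (fun t => g (ex n (pr n t))) = Jf n g := by
    intro n g m hm
    induction m, hm using Nat.le_induction with
    | base => simp only [Jf, pr_ex]
    | succ m hm ih =>
      have he : (fun t => g (ex n (pr n (ex m (pr m t))))) = fun t => g (ex n (pr n t)) := by
        funext t
        rw [pr_congr n (ex m (pr m t)) t fun i hi => ex_pr m t i (by omega)]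
      have h1 := Js m fun t => g (ex n (pr n t))
      rw [he] at h1
      rw [h1, ih]
  let Jn : ℕ → C(Can, ℝ) →L[ℝ] X := fun n =>
    ∑ i, (ContinuousMap.evalCLM ℝ (ex n i)).smulRight ((s n).x i)
  have hJn : ∀ n g, Jn n g = Jf n g := fun n g => by
    simp only [Jn, Jf, _root_.sum_apply, ContinuousLinearMap.smulRight_apply,
      ContinuousMap.evalCLM_apply]
  obtain ⟨J, hJ⟩ := lim_clm Jn fun g => by
    refine Metric.cauchySeq_iff'.2 fun ε hε => ?_
    obtain ⟨N, hN⟩ := cut_unif g (ε / 3) (by positivity)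
    refine ⟨N, fun n hn => ?_⟩
    rw [dist_eq_norm, hJn, hJn, ← Jm N g n hn]
    have : Jf n g - Jf n (fun t => g (ex N (pr N t)))
        = Jf n fun t => g t - g (ex N (pr N t)) := by
      simp only [Jf, sub_smul, sum_sub_distrib]
    rw [this]
    linarith [Jb n _ _ (hN N le_rfl)]
  -- the projection
  let Pl : ℕ → X →ₗ[ℝ] C(Can, ℝ) := fun n =>
    { toFun := fun x => ⟨fun t => (s n).ψ (pr n t) x, cont_pr n fun i => (s n).ψ i x⟩
      map_add' := fun x y => by ext t; simp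
      map_smul' := fun c x => by ext t; simp }
  have hPl : ∀ n x, ‖Pl n x‖ ≤ 1 * ‖x‖ := fun n x => by
    rw [one_mul, ContinuousMap.norm_le _ (norm_nonneg _)]
    exact fun t => abs_apply_le (hψ1 n _) x
  let Pn : ℕ → X →L[ℝ] C(Can, ℝ) := fun n => (Pl n).mkContinuous 1 (hPl n)
  have hPn : ∀ n x t, Pn n x t = (s n).ψ (pr n t) x := fun n x t => rfl
  have hPb : ∀ n x, ‖Pn n x‖ ≤ ‖x‖ := fun n x => (hPl n x).trans_eq (one_mul _)
  have hcu : ∀ m, CauchySeq fun n => Pn n (u m) := by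
    intro m
    rw [← cauchySeq_shift m]
    refine cauchySeq_of_le_geometric (1 / 2) 1 (by norm_num) fun n => ?_
    rw [dist_comm, dist_eq_norm, ContinuousMap.norm_le _ (by positivity)]
    intro t
    have h1 := hψ (n + m) (pr (n + m) t, t (n + m)) m (by omega)
    have h2 : ((1 : ℝ) / 2) ^ (n + m) ≤ (1 / 2) ^ n :=
      pow_le_pow_of_le_one (by norm_num) (by norm_num) (by omega)
    have h3 : (0 : ℝ) ≤ (1 / 2) ^ n := by positivity
    rw [show n + 1 + m = n + m + 1 by omega, ContinuousMap.sub_apply, hPn, hPn]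
    exact h1.trans (by linarith)
  obtain ⟨P, hP⟩ := lim_clm Pn fun x => by
    refine Metric.cauchySeq_iff.2 fun ε hε => ?_
    obtain ⟨m, hm⟩ := hu.exists_dist_lt x (show 0 < ε / 3 by positivity)
    obtain ⟨N, hN⟩ := Metric.cauchySeq_iff.1 (hcu m) (ε / 3) (by positivity)
    refine ⟨N, fun a ha b hb => ?_⟩
    have h1 := hN a ha b hb
    have h2 := hPb a (x - u m)
    have h3 := hPb b (x - u m)
    rw [map_sub, ← dist_eq_norm, ← dist_eq_norm] at h2 h3
    linarith [dist_triangle4 (Pn a x) (Pn a (u m)) (Pn b (u m)) (Pn b x),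
      dist_comm (Pn b x) (Pn b (u m))]
  -- `P J` is close to the identity
  have hPJ : ∀ g : C(Can, ℝ), ‖g - P (J g)‖ ≤ 1 / 2 * ‖g‖ := by
    intro g
    rw [ContinuousMap.norm_le _ (by positivity)]
    intro t
    have h1 : Tendsto (fun n => Pn n (Jn n g)) atTop (𝓝 (P (J g))) := by
      have a1 : Tendsto (fun n => Pn n (Jn n g - J g)) atTop (𝓝 0) := by
        refine squeeze_zero_norm (fun n => hPb n _) ?_
        exact tendsto_iff_norm_sub_tendsto_zero.1 (hJ g)
      simpa using a1.add (hP (J g))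
    have h2 : Tendsto (fun n => Pn n (Jn n g) t) atTop (𝓝 (P (J g) t)) :=
      ((continuous_eval_const t).tendsto _).comp h1
    have h3 : Tendsto (fun n => g (ex n (pr n t))) atTop (𝓝 (g t)) := by
      refine Metric.tendsto_atTop.2 fun ε hε => ?_
      obtain ⟨N, hN⟩ := cut_unif g (ε / 2) (by positivity)
      refine ⟨N, fun n hn => ?_⟩
      rw [dist_comm, Real.dist_eq]
      linarith [hN n hn t]
    refine le_of_tendsto' (h3.sub h2).norm fun n => ?_
    have h4 := (s n).h2 (pr n t)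
    have h5 : g (ex n (pr n t)) - Pn n (Jn n g) t = -∑ j, g (ex n j) *
        ((s n).ψ (pr n t) ((s n).x j) - if pr n t = j then 1 else 0) := by
      rw [hPn, hJn]
      simp only [Jf, map_sum, map_smul, smul_eq_mul, mul_sub, sum_sub_distrib, mul_ite, mul_one,
        mul_zero, sum_ite_eq, mem_univ, if_true]
      ring
    rw [h5, norm_neg]
    refine (norm_sum_le _ _).trans ?_
    calc _ ≤ ∑ j, ‖g‖ * |(s n).ψ (pr n t) ((s n).x j) - if pr n t = j then 1 else 0| :=
          sum_le_sum fun j _ => by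
            rw [norm_mul]
            exact mul_le_mul_of_nonneg_right (g.norm_coe_le_norm _) (norm_nonneg _)
      _ ≤ 1 / 2 * ‖g‖ := by
          rw [← mul_sum, mul_comm]
          exact mul_le_mul_of_nonneg_right (h4.trans (hbet n)) (norm_nonneg _)
  have hlt : ‖(1 : C(Can, ℝ) →L[ℝ] C(Can, ℝ)) - P.comp J‖ < 1 :=
    lt_of_le_of_lt (ContinuousLinearMap.opNorm_le_bound _ (by norm_num) hPJ) (by norm_num)
  let U := Units.oneSub ((1 : C(Can, ℝ) →L[ℝ] C(Can, ℝ)) - P.comp J) hlt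
  have hU : (U : C(Can, ℝ) →L[ℝ] C(Can, ℝ)) = P.comp J := by simp [U]
  refine ⟨J, ((U⁻¹ : Units _) : C(Can, ℝ) →L[ℝ] C(Can, ℝ)).comp P, fun g => ?_⟩
  have := congrArg (fun L : C(Can, ℝ) →L[ℝ] C(Can, ℝ) => L g) U.inv_mul
  rw [hU] at this
  exact this

end N124
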