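import Vale.Agent.N124.Plan

/-!
P124, second hand-in: Gurarii spaces have the approximate ball property, and every separable
space with this property is complemented in every separable Gurarii space.
-/

open TopologicalSpace Metric Set

namespace N124

section

variable {G Z A : Type} [NormedAddCommGroup G] [NormedSpace ℝ G] [NormedAddCommGroup Z]
  [NormedSpace ℝ Z]

theorem gur0 (hG : IsGurarii G) [NormedAddCommGroup A] [NormedSpace ℝ A] [FiniteDimensional ℝ A]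
    (i : A →ₗᵢ[ℝ] Z) (T : A →ₗᵢ[ℝ] G) (z : Z) {ε : ℝ} (hε : 0 < ε) :
    ∃ g, ∀ (a : A) (t : ℝ), (1 - ε) * ‖i a + t • z‖ ≤ ‖T a + t • g‖ ∧
      ‖T a + t • g‖ ≤ (1 + ε) * ‖i a + t • z‖ := by
  let B : Submodule ℝ Z := LinearMap.range i.toLinearMap ⊔ Submodule.span ℝ {z}
  have hz : z ∈ B := Submodule.mem_sup_right (Submodule.mem_span_singleton_self z)
  let j : A →ₗᵢ[ℝ] B := ⟨i.toLinearMap.codRestrict B fun a => Submodule.mem_sup_left ⟨a, rfl⟩,
    fun a => i.norm_map a⟩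
  obtain ⟨S, h1, h2⟩ := hG B (LinearMap.range j.toLinearMap)
    (T.comp j.equivRange.symm.toLinearIsometry) ε hε
  refine ⟨S ⟨z, hz⟩, fun a t => ?_⟩
  have e : S (j a) = T a := (h1 (j.equivRange a)).trans
    (congrArg T (j.equivRange.symm_apply_apply a))
  have := h2 (j a + t • ⟨z, hz⟩)
  rwa [map_add, map_smul, e] at this

/-- One more point in a Gurarii space. -/
theorem gur1 (hG : IsGurarii G) [AddCommGroup A] [Module ℝ A] [FiniteDimensional ℝ A]
    (i : A →ₗ[ℝ] Z) (T : A →ₗ[ℝ] G) (h : ∀ a, ‖T a‖ = ‖i a‖) (z : Z) {ε : ℝ} (hε : 0 < ε) :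
    ∃ g, ∀ (a : A) (t : ℝ), (1 - ε) * ‖i a + t • z‖ ≤ ‖T a + t • g‖ ∧
      ‖T a + t • g‖ ≤ (1 + ε) * ‖i a + t • z‖ := by
  let W := LinearMap.range (i.prod T)
  obtain ⟨g, hg⟩ := gur0 (A := W) hG ⟨(LinearMap.fst ℝ Z G).comp W.subtype, by
      rintro ⟨_, a, rfl⟩
      show ‖i a‖ = max ‖i a‖ ‖T a‖
      rw [h, max_self]⟩ ⟨(LinearMap.snd ℝ Z G).comp W.subtype, by
      rintro ⟨_, a, rfl⟩
      show ‖T a‖ = max ‖i a‖ ‖T a‖
      rw [h, max_self]⟩ z hε
  exact ⟨g, fun a t => hg ⟨_, a, rfl⟩ t⟩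

end

theorem gurBall : GurBallStmt := by
  intro G _ _ hG ι _ x r h ε hε
  classical
  rcases isEmpty_or_nonempty ι with c | c
  · exact ⟨0, fun i => c.elim i⟩
  let Γ := {φ : StrongDual ℝ G // ‖φ‖ ≤ 1}
  have bd : ∀ (φ : Γ) (v : G), |φ.1 v| ≤ ‖v‖ := fun φ v =>
    (φ.1.le_opNorm v).trans (mul_le_of_le_one_left (norm_nonneg _) φ.2)
  have ct : ∀ v : G, Continuous fun φ : Γ => φ.1 v := fun v =>
    (ContinuousLinearMap.apply ℝ ℝ v).continuous.comp continuous_subtype_val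
  let j : G →ₗ[ℝ] BoundedContinuousFunction Γ ℝ :=
    { toFun := fun v => .ofNormedAddCommGroup (fun φ => φ.1 v) (ct v) ‖v‖ fun φ => bd φ v
      map_add' := fun v w => BoundedContinuousFunction.ext fun φ => map_add φ.1 v w
      map_smul' := fun t v => BoundedContinuousFunction.ext fun φ => map_smul φ.1 t v }
  have hj : ∀ v, ‖v‖ = ‖j v‖ := fun v => by
    refine le_antisymm ?_ ((BoundedContinuousFunction.norm_le (norm_nonneg v)).2 fun φ => bd φ v)
    obtain ⟨φ, h1, h2⟩ := exists_dual_vector'' ℝ v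
    have := (j v).norm_coe_le_norm ⟨φ, h1⟩
    exact (le_of_eq h2.symm).trans ((le_abs_self _).trans this)
  have r0 : ∀ i, 0 ≤ r i := fun i => by
    have := h i i
    rw [sub_self, norm_zero] at this
    linarith
  let y : Γ → ℝ := fun φ => Finset.univ.sup' Finset.univ_nonempty fun i => φ.1 (x i) - r i
  have hy : ∀ i φ, |y φ - φ.1 (x i)| ≤ r i := fun i φ => by
    have h1 : φ.1 (x i) - r i ≤ y φ :=
      Finset.le_sup' (fun i => φ.1 (x i) - r i) (Finset.mem_univ i)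
    have h2 : y φ ≤ φ.1 (x i) + r i := Finset.sup'_le _ _ fun k _ => by
      have := (le_abs_self _).trans ((bd φ (x k - x i)).trans (h k i))
      rw [map_sub] at this
      linarith
    exact abs_le.2 ⟨by linarith, by linarith⟩
  obtain ⟨i₀⟩ := id c
  let z : BoundedContinuousFunction Γ ℝ := .ofNormedAddCommGroup y
    (Continuous.finset_sup'_apply _ fun i _ => (ct (x i)).sub continuous_const) (r i₀ + ‖x i₀‖)
    fun φ => by
      have := abs_add_le (y φ - φ.1 (x i₀)) (φ.1 (x i₀))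
      rw [sub_add_cancel] at this
      exact this.trans (add_le_add (hy i₀ φ) (bd φ _))
  have p := Finset.sum_nonneg fun i (_ : i ∈ Finset.univ) => r0 i
  let A := Submodule.span ℝ (range x)
  have : FiniteDimensional ℝ A := FiniteDimensional.span_of_finite ℝ (finite_range x)
  obtain ⟨g, hg⟩ := gur1 hG (j.comp A.subtype) A.subtype (fun a => hj a) z
    (show 0 < ε / (∑ i, r i + 1) by positivity)
  refine ⟨g, fun i => ?_⟩
  have h1 := (hg (-⟨x i, Submodule.subset_span ⟨i, rfl⟩⟩) 1).2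
  have h2 : ‖-j (x i) + z‖ ≤ r i := (BoundedContinuousFunction.norm_le (r0 i)).2 fun φ => by
    rw [neg_add_eq_sub]
    exact hy i φ
  have h3 := Finset.single_le_sum (fun i _ => r0 i) (Finset.mem_univ i)
  have h4 : ε / (∑ i, r i + 1) * r i ≤ ε := by
    rw [div_mul_eq_mul_div, div_le_iff₀ (by positivity)]
    exact mul_le_mul_of_nonneg_left (by linarith) hε.le
  rw [map_neg, map_neg, one_smul, one_smul, neg_add_eq_sub] at h1
  refine h1.trans ((mul_le_mul_of_nonneg_left h2 (by positivity)).trans ?_)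
  linarith

section

variable {E F : Type} [NormedAddCommGroup E] [NormedSpace ℝ E] [NormedAddCommGroup F]
  [NormedSpace ℝ F]

/-- `W` is the graph of a map of norm at most `c`. -/
def Bd (c : ℝ) (W : Submodule ℝ (E × F)) : Prop := ∀ w ∈ W, ‖w.2‖ ≤ c * ‖w.1‖

theorem Bd.mono {c c' : ℝ} {W : Submodule ℝ (E × F)} (h : Bd c W) (hc : c ≤ c') : Bd c' W :=
  fun w hw => (h w hw).trans (mul_le_mul_of_nonneg_right hc (norm_nonneg _))

theorem Bd.sup {c : ℝ} {W : Submodule ℝ (E × F)} {g : E} {y : F}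
    (h : ∀ w ∈ W, ∀ t : ℝ, ‖w.2 + t • y‖ ≤ c * ‖w.1 + t • g‖) :
    Bd c (W ⊔ Submodule.span ℝ {(g, y)}) := fun w hw => by
  obtain ⟨u, hu, v, hv, rfl⟩ := Submodule.mem_sup.1 hw
  obtain ⟨t, rfl⟩ := Submodule.mem_span_singleton.1 hv
  exact h u hu t

/-- Maps into a space with the approximate ball property extend to one more point. -/
theorem ext_ball (hF : ABall F) (W : Submodule ℝ (E × F)) [FiniteDimensional ℝ W] {c c' : ℝ}
    (c0 : 0 ≤ c) (hc : c < c') (hW : Bd c W) (g : E) :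
    ∃ y, ∀ w ∈ W, ∀ t : ℝ, ‖w.2 + t • y‖ ≤ c' * ‖w.1 + t • g‖ := by
  suffices h : ∃ y, ∀ w ∈ W, ‖y - w.2‖ ≤ c' * ‖g - w.1‖ by
    obtain ⟨y, h⟩ := h
    refine ⟨y, fun w hw t => ?_⟩
    rcases eq_or_ne t 0 with rfl | ht
    · rw [zero_smul, zero_smul, add_zero, add_zero]
      exact hW.mono hc.le w hw
    · have := mul_le_mul_of_nonneg_left (h _ (W.smul_mem (-t⁻¹) hw)) (norm_nonneg t)
      rwa [mul_left_comm, ← norm_smul, ← norm_smul, Prod.smul_fst, Prod.smul_snd, smul_sub,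
        smul_sub, smul_smul, smul_smul, mul_neg, mul_inv_cancel₀ ht, neg_one_smul, neg_one_smul,
        sub_neg_eq_add, sub_neg_eq_add, add_comm, add_comm (t • g)] at this
  by_cases hg : g ∈ W.map (LinearMap.fst ℝ E F)
  · obtain ⟨w₀, h0, rfl⟩ := hg
    exact ⟨w₀.2, fun w hw => hW.mono hc.le _ (W.sub_mem h0 hw)⟩
  have d0 := ((W.map (LinearMap.fst ℝ E F)).closed_of_finiteDimensional.notMem_iff_infDist_pos
    ⟨0, Submodule.zero_mem _⟩).1 hg
  have d1 : ∀ w ∈ W, infDist g (W.map (LinearMap.fst ℝ E F) : Set E) ≤ ‖g - w.1‖ := fun w hw =>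
    (infDist_le_dist_of_mem (Submodule.mem_map_of_mem hw)).trans_eq (dist_eq_norm _ _)
  generalize infDist g (W.map (LinearMap.fst ℝ E F) : Set E) = d at d0 d1
  have η0 : 0 < c' - c := sub_pos.2 hc
  obtain ⟨δ, δ0, hδ⟩ : ∃ δ > (0 : ℝ), (c + 2) * δ = (c' - c) * d :=
    ⟨(c' - c) * d / (c + 2), by positivity, by field_simp⟩
  obtain ⟨R, R0, hR⟩ : ∃ R : ℝ, 0 ≤ R ∧ (c' - c) * R = 2 * c' * ‖g‖ :=
    ⟨2 * c' * ‖g‖ / (c' - c), div_nonneg (by have : 0 ≤ c' := by linarith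
                                             positivity) η0.le, by field_simp⟩
  have := FiniteDimensional.proper_real W
  obtain ⟨s, -, s1, s2⟩ := finite_cover_balls_of_compact
    (isCompact_closedBall (0 : W) ((c + 1) * R)) δ0
  have := s1.fintype
  obtain ⟨y, hy⟩ := hF s (fun i => i.1.1.2) (fun i => c * ‖g - i.1.1.1‖) (fun i k => by
    refine (hW _ (W.sub_mem i.1.2 k.1.2)).trans ?_
    rw [← mul_add, norm_sub_rev g]
    exact mul_le_mul_of_nonneg_left (norm_sub_le_norm_sub_add_norm_sub _ _ _) c0) δ δ0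
  have k1 : ∀ w ∈ W, ‖w.1‖ ≤ R → ‖y - w.2‖ ≤ c' * ‖g - w.1‖ := fun w hw h => by
    have m : (⟨w, hw⟩ : W) ∈ closedBall (0 : W) ((c + 1) * R) := by
      rw [mem_closedBall_zero_iff]
      have := (hW w hw).trans (mul_le_mul_of_nonneg_left h c0)
      have := mul_nonneg c0 R0
      show max ‖w.1‖ ‖w.2‖ ≤ _
      exact max_le (by linarith) (by linarith)
    obtain ⟨u, hu, h1⟩ := mem_iUnion₂.1 (s2 m)
    have h2 : ‖w - u.1‖ < δ := mem_ball_iff_norm.1 h1
    have h3 : ‖w.1 - u.1.1‖ < δ := (norm_fst_le (w - u.1)).trans_lt h2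
    have h4 : ‖w.2 - u.1.2‖ < δ := (norm_snd_le (w - u.1)).trans_lt h2
    have h5 : ‖y - u.1.2‖ ≤ c * ‖g - u.1.1‖ + δ := hy ⟨u, hu⟩
    have h6 := mul_le_mul_of_nonneg_left
      ((norm_sub_le_norm_sub_add_norm_sub g w.1 u.1.1).trans (add_le_add le_rfl h3.le)) c0
    have h7 := norm_sub_le_norm_sub_add_norm_sub y u.1.2 w.2
    have h8 := mul_le_mul_of_nonneg_left (d1 w hw) η0.le
    rw [norm_sub_rev u.1.2] at h7
    linarith
  refine ⟨y, fun w hw => (le_total ‖w.1‖ R).elim (k1 w hw) fun h => ?_⟩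
  have h1 := k1 0 W.zero_mem (by rwa [Prod.fst_zero, norm_zero])
  rw [Prod.fst_zero, Prod.snd_zero, sub_zero, sub_zero] at h1
  have h2 : ‖w.1‖ ≤ ‖g‖ + ‖g - w.1‖ := by
    have := norm_sub_le g (g - w.1)
    rwa [sub_sub_cancel] at this
  have h3 := mul_le_mul_of_nonneg_left h2 c0
  have h4 := mul_le_mul_of_nonneg_left (h.trans h2) η0.le
  linarith [norm_sub_le y w.2, hW w hw]

/-- The limit of an increasing sequence of graphs. -/
theorem clm_of [CompleteSpace F] (W : ℕ → Submodule ℝ (E × F)) (hm : Monotone W) {C : ℝ}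
    (hW : ∀ n, Bd C (W n)) {g : ℕ → E} (hg : DenseRange g) (h : ∀ n, ∃ m y, (g n, y) ∈ W m) :
    ∃ T : E →L[ℝ] F, ∀ n, ∀ w ∈ W n, T w.1 = w.2 := by
  let V := ⨆ n, W n
  have hV : ∀ n, W n ≤ V := fun n => le_iSup W n
  have hd : DenseRange ((LinearMap.fst ℝ E F).comp V.subtype) := by
    refine hg.mono ?_
    rintro _ ⟨n, rfl⟩
    obtain ⟨m, y, hy⟩ := h n
    exact ⟨⟨_, hV m hy⟩, rfl⟩
  refine ⟨((LinearMap.snd ℝ E F).comp V.subtype).extendOfNorm
    ((LinearMap.fst ℝ E F).comp V.subtype), fun n w hw =>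
    LinearMap.extendOfNorm_eq hd ⟨C, fun u => ?_⟩ ⟨w, hV n hw⟩⟩
  obtain ⟨k, hk⟩ := (Submodule.mem_iSup_of_directed W hm.directed_le).1 u.2
  exact hW k _ hk

/-- A stage of the construction. -/
structure Ok (c : ℝ) (s : Submodule ℝ (E × F) × Submodule ℝ (F × E)) : Prop where
  f1 : FiniteDimensional ℝ s.1
  f2 : FiniteDimensional ℝ s.2
  b1 : Bd c s.1
  b2 : Bd c s.2
  sw : ∀ w ∈ s.2, w.swap ∈ s.1

theorem ok_step (hE : IsGurarii E) (hF : ABall F) {c c' : ℝ} (h1 : 1 ≤ c) (hc : c < c')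
    {s : Submodule ℝ (E × F) × Submodule ℝ (F × E)} (h : Ok c s) (g : E) (v : F) :
    ∃ s', Ok c' s' ∧ s ≤ s' ∧ (∃ y, (g, y) ∈ s'.1) ∧ ∃ a, (v, a) ∈ s'.2 := by
  obtain ⟨c₁, k1, k2⟩ := exists_between hc
  have c1 : 1 ≤ c₁ := h1.trans k1.le
  have c0 : 0 < c₁ := by linarith
  have := h.f1
  have := h.f2
  obtain ⟨y, hy⟩ := ext_ball hF s.1 (by linarith) k1 h.b1 g
  have b1 := Bd.sup hy
  have l1 : s.1 ≤ s.1 ⊔ Submodule.span ℝ {(g, y)} := le_sup_left
  have m1 : (g, y) ∈ s.1 ⊔ Submodule.span ℝ {(g, y)} :=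
    Submodule.mem_sup_right (Submodule.mem_span_singleton_self _)
  have f1 : FiniteDimensional ℝ ↥(s.1 ⊔ Submodule.span ℝ {(g, y)}) := inferInstance
  generalize s.1 ⊔ Submodule.span ℝ {(g, y)} = W at b1 l1 m1 f1
  obtain ⟨z, hz⟩ := ext_ball (gurBall E hE) s.2 (by linarith) k1 h.b2 v
  obtain ⟨ε, e0, e1⟩ : ∃ ε > (0 : ℝ), c' * ε = c' - c₁ :=
    ⟨(c' - c₁) / c', div_pos (by linarith) (by linarith), mul_div_cancel₀ _ (by linarith)⟩
  have sc : ∀ u : F, ‖c₁⁻¹ • u‖ = c₁⁻¹ * ‖u‖ := fun u => by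
    rw [norm_smul, norm_inv, Real.norm_of_nonneg c0.le]
  obtain ⟨a, ha⟩ := gur1 hE ((LinearMap.id.prodMap (c₁⁻¹ • LinearMap.id)).comp W.subtype)
    ((LinearMap.fst ℝ E F).comp W.subtype) (fun w => by
      show ‖w.1.1‖ = max ‖w.1.1‖ ‖c₁⁻¹ • w.1.2‖
      rw [max_eq_left]
      rw [sc, inv_mul_le_iff₀ c0]
      exact b1 _ w.2) (z, c₁⁻¹ • v) e0
  have ha' : ∀ w ∈ W, ∀ t : ℝ,
      (1 - ε) * max ‖w.1 + t • z‖ (c₁⁻¹ * ‖w.2 + t • v‖) ≤ ‖w.1 + t • a‖ ∧
      ‖w.1 + t • a‖ ≤ (1 + ε) * max ‖w.1 + t • z‖ (c₁⁻¹ * ‖w.2 + t • v‖) := fun w hw t => by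
    rw [← sc, smul_add, smul_comm]
    exact ha ⟨w, hw⟩ t
  refine ⟨(W ⊔ Submodule.span ℝ {(a, v)}, s.2 ⊔ Submodule.span ℝ {(v, a)}),
    ⟨inferInstance, inferInstance, Bd.sup fun w hw t => ?_, Bd.sup fun w hw t => ?_,
      fun w hw => ?_⟩, ⟨l1.trans le_sup_left, le_sup_left⟩, ⟨y, Submodule.mem_sup_left m1⟩,
    a, Submodule.mem_sup_right (Submodule.mem_span_singleton_self _)⟩
  · have e2 : 0 ≤ 1 - ε := by nlinarith
    have := mul_le_mul_of_nonneg_left ((mul_le_mul_of_nonneg_left (le_max_right _ _) e2).trans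
      (ha' w hw t).1) (show 0 ≤ c' by linarith)
    rwa [← mul_assoc, mul_sub, mul_one, e1, sub_sub_cancel, mul_inv_cancel_left₀ c0.ne'] at this
  · have q1 : max ‖w.2 + t • z‖ (c₁⁻¹ * ‖w.1 + t • v‖) ≤ c₁ * ‖w.1 + t • v‖ :=
      max_le (hz w hw t) (mul_le_mul_of_nonneg_right
        ((inv_le_one_of_one_le₀ c1).trans c1) (norm_nonneg _))
    refine (ha' _ (l1 (h.sw w hw)) t).2.trans ((mul_le_mul_of_nonneg_left q1 (by linarith)).trans ?_)
    rw [← mul_assoc]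
    exact mul_le_mul_of_nonneg_right (by nlinarith) (norm_nonneg _)
  · obtain ⟨u, hu, x, hx, rfl⟩ := Submodule.mem_sup.1 hw
    obtain ⟨t, rfl⟩ := Submodule.mem_span_singleton.1 hx
    exact Submodule.add_mem_sup (l1 (h.sw u hu)) (Submodule.mem_span_singleton.2 ⟨t, rfl⟩)

end

theorem woj : WojStmt := by
  intro G _ _ _ _ hG F _ _ _ _ hF
  let c : ℕ → ℝ := fun n => 2 - 1 / ((n : ℝ) + 1)
  have c1 : ∀ n, 1 ≤ c n := fun n => by
    have : 1 / ((n : ℝ) + 1) ≤ 1 := div_le_one_of_le₀ (by linarith [n.cast_nonneg (α := ℝ)])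
      (by positivity)
    simp only [c]
    linarith
  have c2 : ∀ n, c n ≤ 2 := fun n => sub_le_self _ (by positivity)
  have c3 : ∀ n, c n < c (n + 1) := fun n =>
    sub_lt_sub_left (one_div_lt_one_div_of_lt (by positivity) (by push_cast; linarith)) 2
  choose f f1 f2 f3 f4 using fun (n : ℕ) (s : {s // Ok (c n) s}) =>
    ok_step hG hF (c1 n) (c3 n) s.2 (denseSeq G n) (denseSeq F n)
  let s : ∀ n, {s : Submodule ℝ (G × F) × Submodule ℝ (F × G) // Ok (c n) s} := fun n =>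
    Nat.rec ⟨(⊥, ⊥), inferInstance, inferInstance, fun w hw => by simp [show w = 0 from hw],
      fun w hw => by simp [show w = 0 from hw], fun w hw => by simp [show w = 0 from hw]⟩
      (fun n s => ⟨f n s, f1 n s⟩) n
  have hm : Monotone fun n => (s n).1 := monotone_nat_of_le_succ fun n => f2 n (s n)
  obtain ⟨T, hT⟩ := clm_of (fun n => (s n).1.1) (fun _ _ h => (hm h).1)
    (fun n => (s n).2.b1.mono (c2 n)) (denseRange_denseSeq G) fun n => ⟨n + 1, f3 n (s n)⟩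
  obtain ⟨S, hS⟩ := clm_of (fun n => (s n).1.2) (fun _ _ h => (hm h).2)
    (fun n => (s n).2.b2.mono (c2 n)) (denseRange_denseSeq F) fun n => ⟨n + 1, f4 n (s n)⟩
  refine ⟨S, T, fun x => (denseRange_denseSeq F).induction_on x
    (isClosed_eq (T.continuous.comp S.continuous) continuous_id) fun n => ?_⟩
  obtain ⟨a, ha⟩ := f4 n (s n)
  rw [show S (denseSeq F n) = a from hS (n + 1) _ ha]
  exact hT (n + 1) _ ((s (n + 1)).2.sw _ ha)

end N124
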